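import Vale.Agent.P166.Parisi.Spec.Defs

/-!
Module S, part 5: the path of a hierarchy.
-/

namespace Vale.Agent.P166.Parisi

open Finset Set
open Vale.Agent.P157.Parisi (lvl IsPath)

lemma lvl_mem {K l : ℕ} (hl : l ≤ K + 1) : lvl K l ∈ Icc (0 : ℝ) 1 := by
  refine ⟨by unfold lvl; positivity, ?_⟩
  rw [lvl, div_le_one (by positivity)]
  exact_mod_cast hl

lemma qTail_le {K : ℕ} {q : ℕ → ℝ} (hq : IsPath q) {l : ℕ} (hl : l ≤ K + 1) :
    0 ≤ qTail K q l ∧ qTail K q l ≤ (1 - lvl K l) * q K := by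
  have h0 : ∀ m, 0 ≤ q m := fun m => hq.2.trans (hq.1 (Nat.zero_le m))
  refine ⟨div_nonneg (Finset.sum_nonneg fun m _ => h0 m) (by positivity), ?_⟩
  rw [qTail, lvl, div_le_iff₀ (by positivity)]
  calc ∑ m ∈ Finset.Ico l (K + 1), q m ≤ ∑ _m ∈ Finset.Ico l (K + 1), q K :=
        Finset.sum_le_sum fun m hm => hq.1 (Nat.lt_succ_iff.1 (Finset.mem_Ico.1 hm).2)
    _ = _ := by
        rw [Finset.sum_const, Nat.card_Ico, nsmul_eq_mul, Nat.cast_sub hl]
        push_cast
        field_simp

theorem chiPath_mem {K : ℕ} {q : ℕ → ℝ} (hq : IsPath q) (h1 : q K ≤ 1) {s : ℝ}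
    (hs : s ∈ Icc (0 : ℝ) 1) : chiPath K q s ∈ Icc (0 : ℝ) 1 := by
  refine ⟨Finset.le_inf' _ _ fun l hl => ?_, ?_⟩
  · have hl' : l ≤ K + 1 := Nat.lt_succ_iff.1 (Finset.mem_range.1 hl)
    obtain ⟨x0, x1⟩ := lvl_mem hl'
    have h := (qTail_le hq hl').2
    nlinarith [mul_nonneg x0 (sub_nonneg.2 hs.2), mul_nonneg (sub_nonneg.2 x1) (sub_nonneg.2 h1)]
  · refine (Finset.inf'_le _ (Finset.mem_range.2 (show 0 < K + 2 by omega))).trans ?_
    have h := (qTail_le hq (Nat.zero_le (K + 1))).1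
    simp [lvl]; linarith

theorem chiPath_pos {K : ℕ} {q : ℕ → ℝ} (hq : IsPath q) (h1 : q K < 1) {s : ℝ}
    (hs : s ∈ Ico (0 : ℝ) 1) : 0 < chiPath K q s := by
  rw [chiPath, Finset.lt_inf'_iff]
  intro l hl
  have hl' : l ≤ K + 1 := Nat.lt_succ_iff.1 (Finset.mem_range.1 hl)
  obtain ⟨x0, x1⟩ := lvl_mem hl'
  have h := (qTail_le hq hl').2
  rcases x1.eq_or_lt with hx | hx
  · rw [hx] at h ⊢
    linarith [hs.2]
  · nlinarith [mul_nonneg x0 (sub_nonneg.2 hs.2.le), mul_pos (sub_pos.2 hx) (sub_pos.2 h1)]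

theorem chiPath_tail {K : ℕ} {p q : ℕ → ℝ} {η : ℝ} (hη : 0 ≤ η)
    (h : ∀ l ≤ K, qTail K q l - η ≤ qTail K p l) (s : ℝ) :
    chiPath K p s ≤ chiPath K q s + η := by
  rw [← sub_le_iff_le_add]
  refine Finset.le_inf' _ _ fun l hl => ?_
  rw [sub_le_iff_le_add]
  refine (Finset.inf'_le _ hl).trans ?_
  rcases Nat.lt_or_ge l (K + 1) with hlt | hge
  · linarith [h l (Nat.lt_succ_iff.1 hlt)]
  · simp [qTail, Finset.Ico_eq_empty_of_le hge]; linarith

theorem chiPath_continuous (K : ℕ) (q : ℕ → ℝ) : Continuous (chiPath K q) :=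
  Continuous.finset_inf'_apply _ fun _ _ => by fun_prop

/-- The sum over the refined levels inside one block. -/
lemma sum_block (q : ℕ → ℝ) {K L : ℕ} (hL : 0 < L) :
    ∀ j ≤ K + 1, ∑ m ∈ Finset.range (j * L), q (min K (m / L)) = (L:ℝ) * ∑ m ∈ Finset.range j, q m
  | 0, _ => by simp
  | j + 1, hj => by
    rw [Nat.succ_mul, Finset.sum_range_add, sum_block q hL j (by omega), Finset.sum_range_succ,
      mul_add]
    congr 1
    calc ∑ x ∈ Finset.range L, q (min K ((j * L + x) / L)) = ∑ _x ∈ Finset.range L, q j :=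
          Finset.sum_congr rfl fun x hx => by
            rw [Nat.mul_comm, Nat.mul_add_div hL, Nat.div_eq_of_lt (Finset.mem_range.1 hx),
              add_zero, Nat.min_eq_right (by omega)]
      _ = _ := by simp

/-- Repeating every level `L` times does not change the path. -/
theorem chiPath_refine {K L : ℕ} (hL : 0 < L) {q : ℕ → ℝ} (_hq : IsPath q) (_h1 : q K ≤ 1) {s : ℝ}
    (_hs : s ∈ Icc (0 : ℝ) 1) :
    chiPath ((K + 1) * L - 1) (fun l => q (min K (l / L))) s = chiPath K q s := by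
  set K' := (K + 1) * L - 1
  have hK' : K' + 1 = (K + 1) * L := Nat.sub_add_cancel (Nat.mul_pos (Nat.succ_pos K) hL)
  have hLr : (0:ℝ) < L := by exact_mod_cast hL
  have hKr : (0:ℝ) < (K:ℝ) + 1 := by positivity
  set q' : ℕ → ℝ := fun l => q (min K (l / L))
  have hcast : ((K':ℕ):ℝ) + 1 = ((K:ℝ) + 1) * L := by exact_mod_cast hK'
  set line' : ℕ → ℝ := fun l => 1 - lvl K' l * s - qTail K' q' l with hline'
  set line : ℕ → ℝ := fun l => 1 - lvl K l * s - qTail K q l with hline
  -- a refined line is affine inside each block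
  have hlin : ∀ j ≤ K, ∀ r ≤ L,
      line' (j * L + r) = line j + (r:ℝ) / L * ((q j - s) / ((K:ℝ) + 1)) := by
    intro j hj r hr
    have hjr : j * L + r ≤ (K + 1) * L := by
      calc j * L + r ≤ j * L + L := by omega
        _ = (j + 1) * L := (Nat.succ_mul j L).symm
        _ ≤ _ := Nat.mul_le_mul_right _ (by omega)
    have htail : ∑ m ∈ Finset.Ico (j * L + r) (K' + 1), q' m
        = (L:ℝ) * ∑ m ∈ Finset.Ico j (K + 1), q m - (r:ℝ) * q j := by
      rw [Finset.sum_Ico_eq_sub _ (hK' ▸ hjr), Finset.sum_Ico_eq_sub _ (by omega : j ≤ K + 1), hK',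
        sum_block q hL (K + 1) le_rfl, Finset.sum_range_add q' (j * L) r,
        sum_block q hL j (Nat.le_succ_of_le hj)]
      have : ∑ x ∈ Finset.range r, q' (j * L + x) = (r:ℝ) * q j := by
        calc ∑ x ∈ Finset.range r, q' (j * L + x) = ∑ _x ∈ Finset.range r, q j :=
              Finset.sum_congr rfl fun x hx => by
                simp only [q']
                rw [Nat.mul_comm, Nat.mul_add_div hL,
                  Nat.div_eq_of_lt (lt_of_lt_of_le (Finset.mem_range.1 hx) hr), add_zero,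
                  Nat.min_eq_right hj]
          _ = _ := by simp
      rw [this]; ring
    simp only [hline', hline, qTail, lvl, htail, hcast]
    push_cast
    field_simp
    ring
  have hnext : ∀ j ≤ K, line (j + 1) = line j + (q j - s) / ((K:ℝ) + 1) := by
    intro j hj
    simp only [hline, qTail, lvl, Finset.sum_eq_sum_Ico_succ_bot (Nat.lt_succ_iff.2 hj)]
    push_cast
    field_simp
    ring
  change (Finset.range (K' + 2)).inf' Finset.nonempty_range_add_one line'
    = (Finset.range (K + 2)).inf' Finset.nonempty_range_add_one line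
  apply le_antisymm
  · refine Finset.le_inf' _ _ fun j hj => ?_
    have hj' : j ≤ K + 1 := Nat.lt_succ_iff.1 (Finset.mem_range.1 hj)
    rcases Nat.lt_or_ge j (K + 1) with hlt | hge
    · have e := hlin j (Nat.lt_succ_iff.1 hlt) 0 (Nat.zero_le _)
      simp only [Nat.cast_zero, zero_div, zero_mul, add_zero] at e
      rw [← e]
      refine Finset.inf'_le _ (Finset.mem_range.2 ?_)
      have := Nat.mul_le_mul_right L hlt.le
      omega
    · obtain rfl : j = K + 1 := le_antisymm hj' hge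
      have e := hlin K le_rfl L le_rfl
      rw [div_self hLr.ne', one_mul, ← hnext K le_rfl] at e
      rw [← e]
      refine Finset.inf'_le _ (Finset.mem_range.2 ?_)
      rw [← Nat.succ_mul]
      exact Nat.lt_succ_of_le (le_of_eq hK'.symm)
  · refine Finset.le_inf' _ _ fun l hl => ?_
    have hl' : l ≤ K' + 1 := Nat.lt_succ_iff.1 (Finset.mem_range.1 hl)
    -- the block containing `l`
    obtain ⟨j, r, hj, hr, rfl⟩ : ∃ j r, j ≤ K ∧ r ≤ L ∧ l = j * L + r := by
      refine ⟨min K (l / L), l - min K (l / L) * L, min_le_left _ _, ?_, ?_⟩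
      · rcases Nat.lt_or_ge K (l / L) with h | h
        · rw [Nat.min_eq_left h.le]
          have := hK' ▸ hl'
          rw [Nat.succ_mul] at this
          omega
        · rw [Nat.min_eq_right h, Nat.mul_comm, ← Nat.mod_def]
          exact (Nat.mod_lt l hL).le
      · exact (Nat.add_sub_cancel' ((Nat.mul_le_mul_right L (min_le_right _ _)).trans
          (Nat.div_mul_le_self l L))).symm
    rw [hlin j hj r hr]
    have hr' : (r:ℝ) / L ∈ Icc (0:ℝ) 1 :=
      ⟨by positivity, by rw [div_le_one hLr]; exact_mod_cast hr⟩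
    rcases le_total 0 ((q j - s) / ((K:ℝ) + 1)) with h | h
    · refine (Finset.inf'_le _ (Finset.mem_range.2 (show j < K + 2 by omega))).trans ?_
      linarith [mul_nonneg hr'.1 h]
    · refine (Finset.inf'_le _ (Finset.mem_range.2 (show j + 1 < K + 2 by omega))).trans ?_
      rw [hnext j hj]
      have := mul_nonneg (sub_nonneg.2 hr'.2) (neg_nonneg.2 h)
      linarith

end Vale.Agent.P166.Parisi
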