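import Vale.Agent.P166.Parisi.Spec.Atoms
import Vale.Agent.P166.Parisi.Spec.Path
import Vale.Agent.P166.Parisi.StepMat

/-!
Module S, part 6: the exact solution of the loop equations along a path and its diagonal.
-/

namespace Vale.Agent.P166.Parisi

open MeasureTheory Set
open Vale.Agent.P157.Parisi (lvl IsPath)

/-- The uniform grid of `K + 1` levels. -/
noncomputable def uGrid (K : ℕ) : Grid where
  K := K
  x := lvl K
  x_zero := by simp [lvl]
  x_last := by rw [lvl, div_eq_one_iff_eq (by positivity)]; push_cast; ring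
  x_pos l h1 _ := div_pos (by exact_mod_cast h1) (by positivity)
  x_mono l _ := div_le_div_of_nonneg_right (by push_cast; linarith) (by positivity)

lemma uGrid_w (K l : ℕ) : (uGrid K).w l = 1 / ((K:ℝ) + 1) := by
  simp [Grid.w, uGrid, lvl, ← sub_div]

/-- The matrix of a path: diagonal one. -/
def pathMat (q : ℕ → ℝ) : SMat := ⟨1, q⟩

/-- The affine piece of `chiPath` of index `l`. -/
noncomputable def pathLine (K : ℕ) (q : ℕ → ℝ) (l : ℕ) (s : ℝ) : ℝ :=
  1 - lvl K l * s - qTail K q l

lemma pathLine_succ (K : ℕ) (q : ℕ → ℝ) {l : ℕ} (hl : l ≤ K) (s : ℝ) :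
    pathLine K q (l + 1) s = pathLine K q l s + (q l - s) / ((K:ℝ) + 1) := by
  simp only [pathLine, qTail, lvl, Finset.sum_eq_sum_Ico_succ_bot (Nat.lt_succ_iff.2 hl)]
  push_cast
  field_simp
  ring

lemma eig_pathMat (K : ℕ) (q : ℕ → ℝ) {l : ℕ} (hl : l ≤ K) :
    SMat.eig (uGrid K) (pathMat q) l = pathLine K q l (q l) := by
  induction hd : K - l generalizing l with
  | zero =>
    obtain rfl : l = K := by omega
    rw [show SMat.eig (uGrid l) (pathMat q) l = 1 - q l from
      SMat.eig_top (uGrid l) (pathMat q)]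
    simp [pathLine, qTail, lvl]
    field_simp
    ring
  | succ d ih =>
    have hlt : l < K := by omega
    rw [SMat.eig_step (uGrid K) _ hlt, ih (l := l + 1) (by omega) (by omega),
      pathLine_succ K q hl]
    simp only [pathMat, uGrid, pathLine, lvl]
    push_cast
    field_simp
    ring

lemma pathLine_mono (K : ℕ) (q : ℕ → ℝ) {l : ℕ} {s : ℝ} (hle : ∀ j < l, q j ≤ s) :
    ∀ j ≤ l, l ≤ K + 1 → pathLine K q l s ≤ pathLine K q j s := by
  induction l with
  | zero => intro j hj _; rw [Nat.le_zero.1 hj]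
  | succ n ih =>
    intro j hj hn
    rcases hj.eq_or_lt with rfl | hlt
    · exact le_rfl
    · refine le_trans ?_ (ih (fun j h => hle j (by omega)) j (by omega) (by omega))
      rw [pathLine_succ K q (show n ≤ K by omega)]
      have : (q n - s) / ((K:ℝ) + 1) ≤ 0 :=
        div_nonpos_of_nonpos_of_nonneg (by linarith [hle n (by omega)]) (by positivity)
      linarith

lemma chiPath_eq_line {K : ℕ} {q : ℕ → ℝ} {l : ℕ} (hl : l ≤ K + 1) {s : ℝ}
    (hle : ∀ j < l, q j ≤ s) (hge : ∀ j, l ≤ j → j ≤ K → s ≤ q j) :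
    chiPath K q s = pathLine K q l s := by
  refine le_antisymm (Finset.inf'_le _ (Finset.mem_range.2 (by omega))) ?_
  refine Finset.le_inf' _ _ fun j hj => ?_
  change pathLine K q l s ≤ pathLine K q j s
  have hj' : j ≤ K + 1 := Nat.lt_succ_iff.1 (Finset.mem_range.1 hj)
  rcases le_or_gt j l with h | h
  · exact pathLine_mono K q hle j h hl
  · obtain ⟨d, rfl⟩ := Nat.exists_eq_add_of_le h.le
    clear h hj
    induction d with
    | zero => exact le_rfl
    | succ d ih =>
      refine (ih (by omega)).trans ?_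
      rw [← Nat.add_assoc, pathLine_succ K q (show l + d ≤ K by omega)]
      have : 0 ≤ (q (l + d) - s) / ((K:ℝ) + 1) :=
        div_nonneg (by linarith [hge (l + d) (by omega) (by omega)]) (by positivity)
      linarith

/-- Integrating a derivative along the path. -/
theorem chiPath_integral {K : ℕ} {q : ℕ → ℝ} (hq : IsPath q) (h1 : q K ≤ 1) {Φ φ : ℝ → ℝ}
    (hΦ : ∀ χ, 0 ≤ χ → HasDerivWithinAt Φ (φ χ) (Ici 0) χ) (hφ : ContinuousOn φ (Ici 0)) :
    ∫ s in (0:ℝ)..1, φ (chiPath K q s)
      = φ (pathLine K q 0 (q 0)) * q 0 + (Φ (pathLine K q K (q K)) - Φ 0)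
        + ∑ j ∈ Finset.range K,
          (Φ (pathLine K q j (q j)) - Φ (pathLine K q (j + 1) (q (j + 1)))) / lvl K (j + 1) := by
  have hqK : ∀ j ≤ K, q j ≤ q K := fun j hj => hq.1 hj
  have hq0 : ∀ j, 0 ≤ q j := fun j => hq.2.trans (hq.1 (Nat.zero_le j))
  have hcont : ∀ a b, 0 ≤ a → a ≤ b → b ≤ 1 →
      ContinuousOn (fun s => φ (chiPath K q s)) (Icc a b) := fun a b ha _ hb =>
    hφ.comp (chiPath_continuous K q).continuousOn fun s hs =>
      (chiPath_mem hq h1 ⟨ha.trans hs.1, hs.2.trans hb⟩).1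
  have hint : ∀ a b, 0 ≤ a → a ≤ b → b ≤ 1 →
      IntervalIntegrable (fun s => φ (chiPath K q s)) volume a b := fun a b ha hab hb =>
    (hcont a b ha hab hb).intervalIntegrable_of_Icc hab
  -- one segment
  have hseg : ∀ l, 1 ≤ l → l ≤ K + 1 → ∀ a b, 0 ≤ a → a ≤ b → b ≤ 1 →
      (∀ j < l, q j ≤ a) → (∀ j, l ≤ j → j ≤ K → b ≤ q j) →
      ∫ s in a..b, φ (chiPath K q s)
        = (Φ (pathLine K q l a) - Φ (pathLine K q l b)) / lvl K l := by
    intro l hl1 hl a b ha hab hb hja hjb
    have hx : 0 < lvl K l := div_pos (by exact_mod_cast hl1) (by positivity)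
    have heq : ∀ s ∈ Icc a b, chiPath K q s = pathLine K q l s := fun s hs =>
      chiPath_eq_line hl (fun j hj => (hja j hj).trans hs.1)
        fun j h h' => hs.2.trans (hjb j h h')
    have hmaps : MapsTo (pathLine K q l) (Icc a b) (Ici 0) := fun s hs => by
      rw [mem_Ici, ← heq s hs]
      exact (chiPath_mem hq h1 ⟨ha.trans hs.1, hs.2.trans hb⟩).1
    have hlinec : Continuous (pathLine K q l) := by unfold pathLine; fun_prop
    have hFc : ContinuousOn (fun s => -Φ (pathLine K q l s) / lvl K l) (Icc a b) :=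
      ((ContinuousOn.comp (fun y hy => (hΦ y hy).continuousWithinAt) hlinec.continuousOn
        hmaps).neg).div_const _
    have hFd : ∀ s ∈ Ioo a b,
        HasDerivAt (fun s => -Φ (pathLine K q l s) / lvl K l) (φ (pathLine K q l s)) s := by
      intro s hs
      have hpos : 0 < pathLine K q l s := by
        have h0 : 0 ≤ pathLine K q l b := hmaps (right_mem_Icc.2 hab)
        have hd : pathLine K q l s = pathLine K q l b + lvl K l * (b - s) := by
          simp only [pathLine]; ring
        have := mul_pos hx (sub_pos.2 hs.2)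
        linarith
      have hline : HasDerivAt (pathLine K q l) (-lvl K l) s := by
        have h := (((hasDerivAt_id s).const_mul (lvl K l)).const_sub 1).sub_const (qTail K q l)
        rw [mul_one] at h
        exact h
      refine ((((hΦ _ hpos.le).hasDerivAt (Ici_mem_nhds hpos)).comp s hline).neg.div_const
        (lvl K l)).congr_deriv ?_
      field_simp
    have hftc := intervalIntegral.integral_eq_sub_of_hasDerivAt_of_le hab hFc hFd
      ((hφ.comp hlinec.continuousOn hmaps).intervalIntegrable_of_Icc hab)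
    calc ∫ s in a..b, φ (chiPath K q s) = ∫ s in a..b, φ (pathLine K q l s) :=
          intervalIntegral.integral_congr fun s hs => by
            rw [Set.uIcc_of_le hab] at hs
            simp only [heq s hs]
      _ = _ := by rw [hftc]; ring
  have hfirst : ∫ s in (0:ℝ)..(q 0), φ (chiPath K q s) = φ (pathLine K q 0 (q 0)) * q 0 := by
    calc ∫ s in (0:ℝ)..(q 0), φ (chiPath K q s) = ∫ _s in (0:ℝ)..(q 0), φ (pathLine K q 0 (q 0)) :=
          intervalIntegral.integral_congr fun s hs => by
            rw [Set.uIcc_of_le hq.2] at hs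
            simp only [chiPath_eq_line (Nat.zero_le _) (fun j hj => absurd hj (Nat.not_lt_zero j))
              fun j _ _ => hs.2.trans (hq.1 (Nat.zero_le j))]
            simp [pathLine, lvl]
      _ = _ := by rw [intervalIntegral.integral_const, smul_eq_mul, sub_zero, mul_comm]
  have hmid : ∀ j < K, ∫ s in (q j)..(q (j + 1)), φ (chiPath K q s)
      = (Φ (pathLine K q j (q j)) - Φ (pathLine K q (j + 1) (q (j + 1)))) / lvl K (j + 1) := by
    intro j hj
    rw [hseg (j + 1) (by omega) (by omega) _ _ (hq0 j) (hq.1 (Nat.le_succ j))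
      ((hqK (j + 1) (by omega)).trans h1) (fun i hi => hq.1 (Nat.lt_succ_iff.1 hi))
      fun i h _ => hq.1 h, pathLine_succ K q hj.le, sub_self, zero_div, add_zero]
  have hlast : ∫ s in (q K)..1, φ (chiPath K q s) = Φ (pathLine K q K (q K)) - Φ 0 := by
    have hx : lvl K (K + 1) = 1 := (uGrid K).x_last
    rw [hseg (K + 1) (by omega) le_rfl _ _ (hq0 K) h1 le_rfl
      (fun i hi => hqK i (Nat.lt_succ_iff.1 hi)) (fun i h h' => absurd h' (by omega)), hx, div_one]
    congr 2
    · rw [pathLine_succ K q le_rfl, sub_self, zero_div, add_zero]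
    · simp [pathLine, hx, qTail]
  have hsum : ∫ s in (q 0)..(q K), φ (chiPath K q s) = ∑ j ∈ Finset.range K,
      (Φ (pathLine K q j (q j)) - Φ (pathLine K q (j + 1) (q (j + 1)))) / lvl K (j + 1) := by
    rw [← intervalIntegral.sum_integral_adjacent_intervals fun k hk =>
      hint _ _ (hq0 k) (hq.1 (Nat.le_succ k)) ((hqK (k + 1) hk).trans h1)]
    exact Finset.sum_congr rfl fun j hj => hmid j (Finset.mem_range.1 hj)
  rw [← intervalIntegral.integral_add_adjacent_intervals
      (hint 0 (q K) le_rfl (hq0 K) h1) (hint (q K) 1 (hq0 K) h1 le_rfl),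
    ← intervalIntegral.integral_add_adjacent_intervals
      (hint 0 (q 0) le_rfl hq.2 ((hqK 0 (Nat.zero_le _)).trans h1))
      (hint (q 0) (q K) hq.2 (hqK 0 (Nat.zero_le _)) h1), hfirst, hsum, hlast]
  ring

variable {γ : Type} [Fintype γ] (A : Atoms γ)

/-- The exact solution of the loop equations with weighted sum `Q`, normalised per atom. -/
noncomputable def Atoms.exact (g : Grid) (Q : SMat) (r : γ) : SMat :=
  SMat.ofEig g (A.dPart r (SMat.eig g Q 0) * Q.q 0 / A.p r)
    fun l => A.part r (SMat.eig g Q l) / A.p r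

namespace Atoms

open SMat

lemma dPart_top (χ : ℝ) :
    A.dPart A.top χ = A.p A.top / A.gain (A.topOf χ) (A.topOf χ) := by
  simp [A.dPart_eq, gapTop_top]

lemma part_top (χ : ℝ) : A.part A.top χ = A.p A.top * A.topOf χ := by
  simp [part, gapTop_top]

lemma q_exact_zero (g : Grid) (Q : SMat) (r : γ) :
    (A.exact g Q r).q 0 = A.dPart r (eig g Q 0) * Q.q 0 / A.p r := by
  simp [exact, ofEig]

lemma eig_exact (g : Grid) (Q : SMat) (r : γ) {l : ℕ} (hl : l ≤ g.K) :
    eig g (A.exact g Q r) l = A.part r (eig g Q l) / A.p r := eig_ofEig g _ _ hl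

lemma exact_defect (g : Grid) (Q : SMat) (r : γ) :
    Eqv g (defect g (A.gapTop r) (A.exact g Q r) (A.exact g Q A.top)) ⟨0, fun _ => 0⟩ := by
  have hp := (A.pos r).ne'
  have hp0 := (A.pos A.top).ne'
  refine eqv_of_eig g ?_ fun l hl => ?_
  · have hd := (A.den_pos (A.topOf_nonneg (eig g Q 0)) r).ne'
    rw [q_defect_zero, A.eig_exact g Q r (Nat.zero_le _), A.eig_exact g Q A.top (Nat.zero_le _),
      A.q_exact_zero, A.q_exact_zero, A.dPart_eq, A.dPart_top, A.part_top, part]
    field_simp
    ring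
  · have hd := (A.den_pos (A.topOf_nonneg (eig g Q l)) r).ne'
    rw [eig_defect g _ _ _ hl, A.eig_exact g Q r hl, A.eig_exact g Q A.top hl, A.part_top, part]
    rw [show eig g ⟨0, fun _ => 0⟩ l = 0 by simp [eig, above]]
    generalize A.topOf (eig g Q l) = z at hd ⊢
    rw [mul_div_cancel_left₀ z hp0, mul_div_assoc, mul_div_right_comm, div_self hp, one_mul,
      div_eq_mul_inv]
    linear_combination z * inv_mul_cancel₀ hd

lemma exact_comb (g : Grid) (Q : SMat) (hQ : ∀ l ≤ g.K, 0 ≤ eig g Q l) :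
    Eqv g (comb A.p (A.exact g Q)) Q := by
  refine eqv_of_eig g ?_ fun l hl => ?_
  · simp only [comb, A.q_exact_zero, mul_div_cancel₀ _ (A.pos _).ne', ← Finset.sum_mul,
      dPart_sum A _ (hQ 0 (Nat.zero_le _)), one_mul]
  · rw [eig_comb]
    refine (Finset.sum_congr rfl fun r _ => ?_).trans (part_sum A (hQ l hl))
    rw [A.eig_exact g Q r hl, mul_div_cancel₀ _ (A.pos r).ne']

lemma exact_nice (g : Grid) (Q : SMat) {B : ℝ} (hQ : Nice g B Q) (r : γ) :
    Nice g (B / A.p A.top) (A.exact g Q r) := by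
  have hπ := A.pos A.top
  have hp := A.pos r
  have key : ∀ χ χ', 0 ≤ χ → 0 ≤ χ' →
      |A.part r χ / A.p r - A.part r χ' / A.p r| ≤ |χ - χ'| / A.p A.top := by
    intro χ χ' h h'
    have hd := A.den_pos (A.topOf_nonneg χ) r
    have hd' := A.den_pos (A.topOf_nonneg χ') r
    have e : A.part r χ / A.p r - A.part r χ' / A.p r = (A.topOf χ - A.topOf χ')
        / ((1 + A.gapTop r * A.topOf χ) * (1 + A.gapTop r * A.topOf χ')) := by
      rw [part, part, div_sub_div_same, div_sub_div _ _ hd.ne' hd'.ne', div_div,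
        eq_comm, ← mul_div_mul_left _ _ hp.ne']
      congr 1 <;> ring
    rw [e, abs_div, abs_of_pos (mul_pos hd hd')]
    refine (div_le_self (abs_nonneg _) (one_le_mul_of_one_le_of_one_le
      (le_add_of_nonneg_right (mul_nonneg (A.gapTop_nonneg r) (A.topOf_nonneg _)))
      (le_add_of_nonneg_right (mul_nonneg (A.gapTop_nonneg r) (A.topOf_nonneg _))))).trans ?_
    exact A.abs_topOf_sub_le h' h
  refine ⟨le_trans ?_ (div_le_div_of_nonneg_right hQ.1 hπ.le), fun l hl => ⟨?_, ?_⟩⟩
  · rw [var, var, add_div, Finset.sum_div]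
    refine add_le_add ?_ (Finset.sum_le_sum fun l hl => ?_)
    · rw [A.q_exact_zero, abs_div, abs_mul, abs_of_pos hp, abs_of_nonneg (dPart_nonneg A r _),
        mul_comm, mul_div_assoc, div_eq_mul_inv |Q.q 0|]
      refine mul_le_mul_of_nonneg_left ?_ (abs_nonneg _)
      have hd := A.den_pos (A.topOf_nonneg (eig g Q 0)) r
      have hg := A.gain_pos (A.topOf_nonneg (eig g Q 0)) (A.topOf_nonneg (eig g Q 0))
      rw [A.dPart_eq, show A.p r / (1 + A.gapTop r * A.topOf (eig g Q 0)) ^ 2
            / A.gain (A.topOf (eig g Q 0)) (A.topOf (eig g Q 0)) / A.p r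
          = ((1 + A.gapTop r * A.topOf (eig g Q 0)) ^ 2
            * A.gain (A.topOf (eig g Q 0)) (A.topOf (eig g Q 0)))⁻¹ by field_simp]
      refine inv_anti₀ hπ (le_trans (A.gain_ge (A.topOf_nonneg (eig g Q 0)) (A.topOf_nonneg (eig g Q 0))) ?_)
      exact le_mul_of_one_le_left hg.le (one_le_pow₀
        (le_add_of_nonneg_right (mul_nonneg (A.gapTop_nonneg r) (A.topOf_nonneg _))))
    · have hlt := Finset.mem_range.1 hl
      have hx := g.x_pos (l + 1) (by omega) hlt
      have e : (A.exact g Q r).q (l + 1) - (A.exact g Q r).q l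
          = (A.part r (eig g Q l) / A.p r - A.part r (eig g Q (l + 1)) / A.p r) / g.x (l + 1) := by
        simp [exact, ofEig, Finset.sum_range_succ]
      rw [e, abs_div, abs_of_pos hx, div_le_iff₀ hx]
      refine (key _ _ (hQ.2 l hlt.le).1 (hQ.2 (l + 1) hlt).1).trans (le_of_eq ?_)
      rw [show eig g Q l - eig g Q (l + 1) = g.x (l + 1) * (Q.q (l + 1) - Q.q l) by
        linarith [eig_step g Q hlt], abs_mul, abs_of_pos hx]
      ring
  · rw [A.eig_exact g Q r hl]
    exact div_nonneg (part_nonneg A (hQ.2 l hl).1 r) hp.le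
  · rw [A.eig_exact g Q r hl]
    have h := key (eig g Q l) 0 (hQ.2 l hl).1 le_rfl
    rw [show A.part r 0 = 0 by simp [part, A.topOf_zero], zero_div, sub_zero, sub_zero,
      abs_of_nonneg (hQ.2 l hl).1, abs_of_nonneg (div_nonneg (part_nonneg A (hQ.2 l hl).1 r) hp.le)]
      at h
    exact h.trans (div_le_div_of_nonneg_right (hQ.2 l hl).2 hπ.le)

/-- The diagonal of the exact solution along a path. -/
theorem exact_path_d {K : ℕ} {q : ℕ → ℝ} (hq : IsPath q) (h1 : q K ≤ 1) (r : γ) :
    A.p r * (A.exact (uGrid K) (pathMat q) r).d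
      = ∫ s in (0:ℝ)..1, A.dPart r (chiPath K q s) := by
  have hp := (A.pos r).ne'
  rw [chiPath_integral hq h1 (fun χ h => hasDerivWithinAt_part A r h) (continuousOn_dPart A r),
    show A.part r 0 = 0 by simp [part, A.topOf_zero]]
  simp only [exact, ofEig]
  rw [show (uGrid K).K = K from rfl, eig_pathMat K q le_rfl, eig_pathMat K q (Nat.zero_le K),
    show (pathMat q).q 0 = q 0 from rfl, mul_add, mul_add, Finset.mul_sum]
  have e : ∀ j ∈ Finset.range K, A.p r * ((A.part r (eig (uGrid K) (pathMat q) j) / A.p r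
      - A.part r (eig (uGrid K) (pathMat q) (j + 1)) / A.p r) / (uGrid K).x (j + 1))
      = (A.part r (pathLine K q j (q j)) - A.part r (pathLine K q (j + 1) (q (j + 1))))
        / lvl K (j + 1) := fun j hj => by
    have := Finset.mem_range.1 hj
    rw [eig_pathMat K q this.le, eig_pathMat K q this, show (uGrid K).x (j + 1) = lvl K (j + 1) from rfl]
    field_simp
  rw [Finset.sum_congr rfl e]
  field_simp
  ring

end Atoms

end Vale.Agent.P166.Parisi
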