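import Vale.Agent.P166.Parisi.Spec.Defs

/-!
Module S, part 2: the R-transform of a general compactly supported probability measure.
-/

namespace Vale.Agent.P166.Parisi

open MeasureTheory Set

variable {μ : Measure ℝ}

/-- The Cauchy transform. -/
noncomputable def cauchy (μ : Measure ℝ) (ω : ℝ) : ℝ := ∫ a, (ω - a)⁻¹ ∂μ

lemma supp_bounds [IsProbabilityMeasure μ] (hμ : IsCompact μ.support) :
    ∀ᵐ a ∂μ, sInf μ.support ≤ a ∧ a ≤ sSup μ.support := by
  filter_upwards [Measure.support_mem_ae (μ := μ)] with a ha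
  exact ⟨csInf_le hμ.bddBelow ha, le_csSup hμ.bddAbove ha⟩

lemma supp_sInf_le_sSup [IsProbabilityMeasure μ] (hμ : IsCompact μ.support) :
    sInf μ.support ≤ sSup μ.support :=
  csInf_le_csSup (Measure.nonempty_support (IsProbabilityMeasure.ne_zero μ)) hμ.bddBelow
    hμ.bddAbove

lemma integrable_inv_sub [IsProbabilityMeasure μ] {m : ℝ} (hm : ∀ᵐ a ∂μ, a ≤ m) {ω : ℝ}
    (hω : m < ω) : Integrable (fun a => (ω - a)⁻¹) μ := by
  refine Integrable.of_bound (by fun_prop) (ω - m)⁻¹ ?_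
  filter_upwards [hm] with a ha
  rw [Real.norm_eq_abs, abs_inv, abs_of_pos (by linarith)]
  exact inv_anti₀ (by linarith) (by linarith)

/-- Correlation of two comonotone bounded functions. -/
lemma integral_mul_ge [IsProbabilityMeasure μ] {f g : ℝ → ℝ} {φ : ℝ → ℝ} (hf : Integrable f μ)
    (hg : Integrable g μ) (hfg : Integrable (fun a => f a * g a) μ) (hφ : MonotoneOn φ (Ici 0))
    (he : ∀ᵐ a ∂μ, 0 ≤ f a ∧ g a = φ (f a)) :
    (∫ a, f a ∂μ) * ∫ a, g a ∂μ ≤ ∫ a, f a * g a ∂μ := by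
  set c := ∫ a, f a ∂μ with hc
  have hc0 : 0 ≤ c := integral_nonneg_of_ae (he.mono fun a ha => ha.1)
  have h1 : 0 ≤ ∫ a, (f a * g a - c * g a - φ c * (f a - c)) ∂μ := by
    refine integral_nonneg_of_ae ?_
    filter_upwards [he] with a ⟨ha, hga⟩
    rw [Pi.zero_apply, hga]
    have : 0 ≤ (f a - c) * (φ (f a) - φ c) := by
      rcases le_total (f a) c with h | h
      · exact mul_nonneg_of_nonpos_of_nonpos (sub_nonpos.2 h) (sub_nonpos.2 (hφ ha hc0 h))
      · exact mul_nonneg (sub_nonneg.2 h) (sub_nonneg.2 (hφ hc0 ha h))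
    linarith
  have hi1 : Integrable (fun a => c * g a) μ := hg.const_mul c
  have hi2 : Integrable (fun a => φ c * (f a - c)) μ := (hf.sub (integrable_const c)).const_mul _
  rw [integral_sub (hfg.sub' hi1) hi2, integral_sub hfg hi1, integral_const_mul,
    integral_const_mul, integral_sub hf (integrable_const c), integral_const, probReal_univ,
    ← hc, one_smul, sub_self, mul_zero, sub_zero] at h1
  linarith

/-- One step to the right: `1 / cauchy` has slope at least one. -/
lemma cauchy_shift [IsProbabilityMeasure μ] {m : ℝ} (hm : ∀ᵐ a ∂μ, a ≤ m) {ω d : ℝ} (hω : m < ω)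
    (hd : 0 ≤ d) : cauchy μ (ω + d) * (1 + d * cauchy μ ω) ≤ cauchy μ ω := by
  have hf := integrable_inv_sub hm hω
  have hg := integrable_inv_sub hm (lt_add_of_lt_of_nonneg hω hd)
  have hfg : Integrable (fun a => (ω - a)⁻¹ * (ω + d - a)⁻¹) μ := by
    refine Integrable.of_bound (by fun_prop) ((ω - m)⁻¹ * (ω - m)⁻¹) ?_
    filter_upwards [hm] with a ha
    have h1 : 0 < ω - a := by linarith
    have h2 : 0 < ω + d - a := by linarith
    rw [Real.norm_eq_abs, abs_of_pos (by positivity)]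
    refine mul_le_mul (inv_anti₀ (by linarith) (by linarith))
      (inv_anti₀ (by linarith) (by linarith)) (inv_nonneg.2 h2.le) (inv_nonneg.2 (by linarith))
  have hc : cauchy μ ω * cauchy μ (ω + d) ≤ ∫ a, (ω - a)⁻¹ * (ω + d - a)⁻¹ ∂μ := by
    refine integral_mul_ge (φ := fun y => y / (1 + d * y)) hf hg hfg (fun y hy z hz hyz => ?_) ?_
    · simp only
      rw [div_le_div_iff₀ (by nlinarith [mul_nonneg hd (mem_Ici.1 hy)])
        (by nlinarith [mul_nonneg hd (mem_Ici.1 hz)])]
      nlinarith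
    · filter_upwards [hm] with a ha
      have h1 : 0 < ω - a := by linarith
      refine ⟨inv_nonneg.2 h1.le, ?_⟩
      have h2 : 0 < ω + d - a := by linarith
      have h3 : 0 < ω - a + d := by linarith
      rw [← one_div, ← one_div]
      field_simp
      ring
  have he : cauchy μ ω - cauchy μ (ω + d) = d * ∫ a, (ω - a)⁻¹ * (ω + d - a)⁻¹ ∂μ := by
    rw [cauchy, cauchy, ← integral_const_mul, ← integral_sub hf hg]
    refine integral_congr_ae ?_
    filter_upwards [hm] with a ha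
    have h1 : 0 < ω - a := by linarith
    have h2 : 0 < ω + d - a := by linarith
    field_simp
    ring
  have := mul_le_mul_of_nonneg_left hc hd
  linarith

lemma cauchy_le [IsProbabilityMeasure μ] {m : ℝ} (hm : ∀ᵐ a ∂μ, a ≤ m) {ω : ℝ} (hω : m < ω) :
    cauchy μ ω ≤ (ω - m)⁻¹ := by
  calc cauchy μ ω ≤ ∫ _a, (ω - m)⁻¹ ∂μ := by
        refine integral_mono_ae (integrable_inv_sub hm hω) (integrable_const _) ?_
        filter_upwards [hm] with a ha
        exact inv_anti₀ (by linarith) (by linarith)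
    _ = _ := by simp

lemma le_cauchy [IsProbabilityMeasure μ] {l m : ℝ} (hl : ∀ᵐ a ∂μ, l ≤ a) (hm : ∀ᵐ a ∂μ, a ≤ m)
    {ω : ℝ} (hω : m < ω) : (ω - l)⁻¹ ≤ cauchy μ ω := by
  calc (ω - l)⁻¹ = ∫ _a, (ω - l)⁻¹ ∂μ := by simp
    _ ≤ cauchy μ ω := by
        refine integral_mono_ae (integrable_const _) (integrable_inv_sub hm hω) ?_
        filter_upwards [hl, hm] with a ha ha'
        exact inv_anti₀ (by linarith) (by linarith)

lemma cauchy_pos [IsProbabilityMeasure μ] (hμ : IsCompact μ.support) {ω : ℝ}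
    (hω : sSup μ.support < ω) : 0 < cauchy μ ω := by
  have h := supp_sInf_le_sSup hμ
  refine lt_of_lt_of_le (inv_pos.2 ?_) (le_cauchy ((supp_bounds hμ).mono fun a ha => ha.1)
    ((supp_bounds hμ).mono fun a ha => ha.2) hω)
  linarith

/-- The set defining `omegaInv`. -/
def omegaSet (μ : Measure ℝ) (x : ℝ) : Set ℝ := {ω | sSup μ.support < ω ∧ cauchy μ ω ≤ x}

lemma omegaInv_eq (μ : Measure ℝ) (x : ℝ) : omegaInv μ x = sInf (omegaSet μ x) := rfl

lemma omegaSet_nonempty [IsProbabilityMeasure μ] (hμ : IsCompact μ.support) {x : ℝ} (hx : 0 < x) :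
    sSup μ.support + x⁻¹ ∈ omegaSet μ x := by
  refine ⟨lt_add_of_pos_right _ (inv_pos.2 hx), ?_⟩
  have h := cauchy_le ((supp_bounds hμ).mono fun a ha => ha.2)
    (lt_add_of_pos_right (sSup μ.support) (inv_pos.2 hx))
  rwa [add_sub_cancel_left, inv_inv] at h

lemma omegaSet_bddBelow (μ : Measure ℝ) (x : ℝ) : BddBelow (omegaSet μ x) :=
  ⟨sSup μ.support, fun _ h => h.1.le⟩

lemma omegaInv_anti [IsProbabilityMeasure μ] (hμ : IsCompact μ.support) {x y : ℝ} (hx : 0 < x)
    (hxy : x ≤ y) : omegaInv μ y ≤ omegaInv μ x :=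
  csInf_le_csInf (omegaSet_bddBelow μ y) ⟨_, omegaSet_nonempty hμ hx⟩
    fun _ h => ⟨h.1, h.2.trans hxy⟩

theorem rTrans_mem [IsProbabilityMeasure μ] (hμ : IsCompact μ.support) {x : ℝ} (hx : 0 < x) :
    sInf μ.support ≤ rTrans μ x ∧ rTrans μ x ≤ sSup μ.support := by
  have hS := omegaSet_nonempty hμ hx
  rw [rTrans, omegaInv_eq]
  refine ⟨?_, by linarith [csInf_le (omegaSet_bddBelow μ x) hS]⟩
  rw [le_sub_iff_add_le]
  refine le_csInf ⟨_, hS⟩ fun ω hω => ?_
  have h := (le_cauchy ((supp_bounds hμ).mono fun a ha => ha.1)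
    ((supp_bounds hμ).mono fun a ha => ha.2) hω.1).trans hω.2
  have hpos : 0 < ω - sInf μ.support := by linarith [supp_sInf_le_sSup hμ, hω.1]
  have := (inv_le_comm₀ hpos hx).1 h
  linarith

lemma omegaSet_shift [IsProbabilityMeasure μ] (hμ : IsCompact μ.support) {x y : ℝ} (hx : 0 < x)
    (hxy : x ≤ y) {ω : ℝ} (hω : ω ∈ omegaSet μ y) : ω + (x⁻¹ - y⁻¹) ∈ omegaSet μ x := by
  have hy : 0 < y := hx.trans_le hxy
  have hd : 0 ≤ x⁻¹ - y⁻¹ := sub_nonneg.2 (inv_anti₀ hx hxy)
  set d := x⁻¹ - y⁻¹ with hdd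
  refine ⟨lt_add_of_lt_of_nonneg hω.1 hd, ?_⟩
  have hb := (supp_bounds hμ).mono fun a ha => ha.2
  have h := cauchy_shift hb hω.1 hd
  have hG := cauchy_pos hμ hω.1
  have hden : 0 < 1 + d * cauchy μ ω := by positivity
  refine ((le_div_iff₀ hden).2 h).trans ?_
  rw [div_le_iff₀ hden]
  have e : x * (1 + d * cauchy μ ω) = x + cauchy μ ω - x / y * cauchy μ ω := by
    rw [hdd]; field_simp; ring
  have : x / y * cauchy μ ω ≤ x := by
    rw [div_mul_eq_mul_div, div_le_iff₀ hy]
    exact mul_le_mul_of_nonneg_left hω.2 hx.le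
  linarith

theorem rTrans_mono [IsProbabilityMeasure μ] (hμ : IsCompact μ.support) :
    MonotoneOn (rTrans μ) (Ioi 0) := by
  intro x hx y hy hxy
  have h : omegaInv μ x - (x⁻¹ - y⁻¹) ≤ omegaInv μ y := by
    refine le_csInf ⟨_, omegaSet_nonempty hμ hy⟩ fun ω hω => ?_
    have := csInf_le (omegaSet_bddBelow μ x) (omegaSet_shift hμ hx hxy hω)
    rw [omegaInv_eq]
    linarith
  rw [rTrans, rTrans]
  linarith

lemma rTrans_sub_le [IsProbabilityMeasure μ] (hμ : IsCompact μ.support) {x y : ℝ} (hx : 0 < x)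
    (hxy : x ≤ y) : rTrans μ y - rTrans μ x ≤ x⁻¹ - y⁻¹ := by
  have := omegaInv_anti hμ hx hxy
  rw [rTrans, rTrans]
  linarith

theorem rTrans_continuousOn [IsProbabilityMeasure μ] (hμ : IsCompact μ.support) :
    ContinuousOn (rTrans μ) (Ioi 0) := by
  intro x hx
  have hlim : Filter.Tendsto (fun y => |y⁻¹ - x⁻¹|) (nhdsWithin x (Ioi 0)) (nhds 0) := by
    have h : ContinuousAt (fun y : ℝ => |y⁻¹ - x⁻¹|) x := by
      have : ContinuousAt (fun y : ℝ => y⁻¹) x := continuousAt_inv₀ (ne_of_gt hx)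
      fun_prop
    have h' := h.tendsto.mono_left (nhdsWithin_le_nhds (s := Ioi 0))
    simpa using h'
  rw [ContinuousWithinAt, tendsto_iff_dist_tendsto_zero]
  refine squeeze_zero' (Filter.Eventually.of_forall fun y => dist_nonneg) ?_ hlim
  filter_upwards [self_mem_nhdsWithin] with y hy
  rw [Real.dist_eq]
  rcases le_total x y with h | h
  · have h1 := rTrans_mono hμ hx hy h
    have h2 := rTrans_sub_le hμ hx h
    rw [abs_of_nonneg (sub_nonneg.2 h1),
      abs_of_nonpos (sub_nonpos.2 (inv_anti₀ hx h))]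
    linarith
  · have h1 := rTrans_mono hμ hy hx h
    have h2 := rTrans_sub_le hμ hy h
    rw [abs_of_nonpos (sub_nonpos.2 h1),
      abs_of_nonneg (sub_nonneg.2 (inv_anti₀ hy h))]
    linarith

lemma support_map_mul {β : ℝ} (hβ : 0 < β) :
    (μ.map fun a => β * a).support = (fun a => β * a) '' μ.support := by
  have hcont : Continuous fun a : ℝ => β * a := continuous_const.mul continuous_id
  have hinv : Continuous fun b : ℝ => β⁻¹ * b := continuous_const.mul continuous_id
  ext x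
  rw [Measure.mem_support_iff_forall]
  constructor
  · intro h
    refine ⟨β⁻¹ * x, ?_, mul_inv_cancel_left₀ hβ.ne' x⟩
    rw [Measure.mem_support_iff_forall]
    intro U hU
    obtain ⟨V, hVU, hVo, hxV⟩ := mem_nhds_iff.1 hU
    have hW : (fun b => β⁻¹ * b) ⁻¹' V ∈ nhds x := (hVo.preimage hinv).mem_nhds hxV
    have h1 := h _ hW
    rw [Measure.map_apply hcont.measurable (hVo.preimage hinv).measurableSet] at h1
    refine lt_of_lt_of_le h1 (measure_mono fun a ha => hVU ?_)
    simpa [← mul_assoc, inv_mul_cancel₀ hβ.ne'] using ha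
  · rintro ⟨a, ha, rfl⟩ U hU
    obtain ⟨V, hVU, hVo, hxV⟩ := mem_nhds_iff.1 hU
    refine lt_of_lt_of_le ?_ (measure_mono hVU)
    rw [Measure.map_apply hcont.measurable hVo.measurableSet]
    exact (Measure.mem_support_iff_forall a).1 ha _ ((hVo.preimage hcont).mem_nhds hxV)

theorem rTrans_scale [IsProbabilityMeasure μ] (hμ : IsCompact μ.support) {β : ℝ} (hβ : 0 < β)
    {x : ℝ} (hx : 0 < x) :
    rTrans (μ.map fun a => β * a) x = β * rTrans μ (β * x) := by
  have hcont : Continuous fun a : ℝ => β * a := continuous_const.mul continuous_id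
  have : IsProbabilityMeasure (μ.map fun a => β * a) :=
    Measure.isProbabilityMeasure_map hcont.aemeasurable
  have hsup : sSup (μ.map fun a => β * a).support = β * sSup μ.support := by
    rw [support_map_mul hβ]
    refine ((OrderIso.mulLeft₀ β hβ).map_csSup' ?_ hμ.bddAbove).symm
    exact Measure.nonempty_support (IsProbabilityMeasure.ne_zero μ)
  have hcauchy : ∀ ω, cauchy (μ.map fun a => β * a) (β * ω) = β⁻¹ * cauchy μ ω := by
    intro ω
    rw [cauchy, integral_map hcont.aemeasurable (by fun_prop), cauchy, ← integral_const_mul]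
    exact integral_congr_ae (Filter.Eventually.of_forall fun a => by
      simp only [← mul_sub, mul_inv])
  have hset : ∀ ω, β * ω ∈ omegaSet (μ.map fun a => β * a) x ↔ ω ∈ omegaSet μ (β * x) := by
    intro ω
    simp only [omegaSet, mem_ofPred_eq, hsup, hcauchy, mul_lt_mul_iff_right₀ hβ,
      inv_mul_le_iff₀ hβ]
  have hx' : 0 < β * x := mul_pos hβ hx
  have hω : omegaInv (μ.map fun a => β * a) x = β * omegaInv μ (β * x) := by
    rw [omegaInv_eq, omegaInv_eq]
    apply le_antisymm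
    · have h : sInf (omegaSet (μ.map fun a => β * a) x) / β ≤ sInf (omegaSet μ (β * x)) :=
        le_csInf ⟨_, omegaSet_nonempty hμ hx'⟩ fun ω hω => (div_le_iff₀' hβ).2
          (csInf_le (omegaSet_bddBelow _ _) ((hset ω).2 hω))
      exact (div_le_iff₀' hβ).1 h
    · refine le_csInf ⟨β * (sSup μ.support + (β * x)⁻¹), (hset _).2 (omegaSet_nonempty hμ hx')⟩
        fun ω hω => ?_
      rw [show ω = β * (β⁻¹ * ω) by rw [mul_inv_cancel_left₀ hβ.ne']] at hω ⊢
      exact mul_le_mul_of_nonneg_left (csInf_le (omegaSet_bddBelow _ _) ((hset _).1 hω)) hβ.le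
  rw [rTrans, rTrans, hω, mul_sub, mul_inv, mul_inv_cancel_left₀ hβ.ne']

end Vale.Agent.P166.Parisi
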