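import Vale.Agent.P166.Parisi.Spec.Defs

/-!
Module S, part 1: the overlaps of finitely many atoms as functions of the total overlap.
-/

namespace Vale.Agent.P166.Parisi

open MeasureTheory Finset Set

variable {γ : Type} [Fintype γ] (A : Atoms γ)

namespace Atoms

lemma gapTop_nonneg (r : γ) : 0 ≤ A.gapTop r := sub_nonneg.2 (A.le_top r)

lemma gapTop_top : A.gapTop A.top = 0 := sub_self _

lemma den_pos {z : ℝ} (hz : 0 ≤ z) (r : γ) : 0 < 1 + A.gapTop r * z := by
  have := mul_nonneg (A.gapTop_nonneg r) hz; linarith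

lemma p_le_one (r : γ) : A.p r ≤ 1 :=
  A.sum_p ▸ Finset.single_le_sum (fun s _ => (A.pos s).le) (Finset.mem_univ r)

lemma chiOf_zero : A.chiOf 0 = 0 := by simp [chiOf]

/-- The divided difference of `chiOf`. -/
noncomputable def gain (z z' : ℝ) : ℝ :=
  ∑ r, A.p r / ((1 + A.gapTop r * z) * (1 + A.gapTop r * z'))

lemma chiOf_sub {z z' : ℝ} (hz : 0 ≤ z) (hz' : 0 ≤ z') :
    A.chiOf z' - A.chiOf z = (z' - z) * A.gain z z' := by
  simp only [chiOf, gain, ← Finset.sum_sub_distrib, Finset.mul_sum]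
  refine Finset.sum_congr rfl fun r _ => ?_
  have h1 := (A.den_pos hz r).ne'
  have h2 := (A.den_pos hz' r).ne'
  rw [div_sub_div _ _ h2 h1, ← mul_div_assoc, mul_comm (1 + A.gapTop r * z)]
  congr 1
  ring

lemma gain_ge {z z' : ℝ} (hz : 0 ≤ z) (hz' : 0 ≤ z') : A.p A.top ≤ A.gain z z' := by
  refine le_trans (le_of_eq ?_) (Finset.single_le_sum
    (f := fun r => A.p r / ((1 + A.gapTop r * z) * (1 + A.gapTop r * z')))
    (fun r _ => div_nonneg (A.pos r).le (mul_pos (A.den_pos hz r) (A.den_pos hz' r)).le)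
    (Finset.mem_univ A.top))
  simp [gapTop_top]

lemma gain_pos {z z' : ℝ} (hz : 0 ≤ z) (hz' : 0 ≤ z') : 0 < A.gain z z' :=
  lt_of_lt_of_le (A.pos A.top) (A.gain_ge hz hz')

lemma chiOf_strict {z z' : ℝ} (hz : 0 ≤ z) (h : z < z') : A.chiOf z < A.chiOf z' := by
  have := A.chiOf_sub hz (hz.trans h.le)
  have := mul_pos (sub_pos.2 h) (A.gain_pos hz (hz.trans h.le))
  linarith

lemma chiOf_ge {z : ℝ} (hz : 0 ≤ z) : A.p A.top * z ≤ A.chiOf z := by
  have := A.chiOf_sub le_rfl hz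
  rw [A.chiOf_zero, sub_zero, sub_zero] at this
  rw [this, mul_comm z]
  exact mul_le_mul_of_nonneg_right (A.gain_ge le_rfl hz) hz

lemma chiOf_le_iff {z z' : ℝ} (hz : 0 ≤ z) (hz' : 0 ≤ z') : A.chiOf z ≤ A.chiOf z' ↔ z ≤ z' := by
  constructor
  · intro h
    by_contra hc
    exact (A.chiOf_strict hz' (not_le.1 hc)).not_ge h
  · intro h
    rcases h.eq_or_lt with rfl | h
    · exact le_rfl
    · exact (A.chiOf_strict hz h).le

lemma exists_chiOf_eq {χ : ℝ} (hχ : 0 ≤ χ) : ∃ z, 0 ≤ z ∧ A.chiOf z = χ := by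
  have hc := A.pos A.top
  have hcont : ContinuousOn A.chiOf (Icc 0 (χ / A.p A.top)) :=
    continuousOn_finsetSum _ fun r _ => ((continuousOn_const.mul continuousOn_id).div
      (continuousOn_const.add (continuousOn_const.mul continuousOn_id))
        fun z hz => (A.den_pos hz.1 r).ne')
  have hB : 0 ≤ χ / A.p A.top := by positivity
  have hmem : χ ∈ Icc (A.chiOf 0) (A.chiOf (χ / A.p A.top)) := by
    refine ⟨by rw [A.chiOf_zero]; exact hχ, le_trans (le_of_eq ?_) (A.chiOf_ge hB)⟩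
    rw [mul_div_cancel₀ _ hc.ne']
  obtain ⟨z, hz, e⟩ := intermediate_value_Icc hB hcont hmem
  exact ⟨z, hz.1, e⟩

end Atoms

open Atoms

theorem topOf_chiOf {c : ℝ} (hc : 0 ≤ c) : A.topOf (A.chiOf c) = c := by
  have h : {z | 0 ≤ z ∧ A.chiOf z ≤ A.chiOf c} = Icc 0 c := by
    ext z
    exact ⟨fun h => ⟨h.1, (A.chiOf_le_iff h.1 hc).1 h.2⟩,
      fun h => ⟨h.1, (A.chiOf_le_iff h.1 hc).2 h.2⟩⟩
  rw [Atoms.topOf, h, csSup_Icc hc]

theorem chiOf_topOf {χ : ℝ} (hχ : 0 ≤ χ) : 0 ≤ A.topOf χ ∧ A.chiOf (A.topOf χ) = χ := by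
  obtain ⟨z, hz, rfl⟩ := A.exists_chiOf_eq hχ
  rw [topOf_chiOf A hz]
  exact ⟨hz, rfl⟩

namespace Atoms

lemma topOf_nonneg (χ : ℝ) : 0 ≤ A.topOf χ := by
  rcases le_or_gt 0 χ with h | h
  · exact (chiOf_topOf A h).1
  · have e : {z | 0 ≤ z ∧ A.chiOf z ≤ χ} = ∅ := by
      refine Set.eq_empty_iff_forall_notMem.2 fun z hz => ?_
      have := A.chiOf_ge hz.1
      have := mul_nonneg (A.pos A.top).le hz.1
      have := hz.2
      linarith
    rw [topOf, e, Real.sSup_empty]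

lemma topOf_zero : A.topOf 0 = 0 := by
  have := topOf_chiOf A (c := 0) le_rfl
  rwa [A.chiOf_zero] at this

lemma topOf_sub {χ χ' : ℝ} (h : 0 ≤ χ) (h' : 0 ≤ χ') :
    A.topOf χ' - A.topOf χ = (χ' - χ) / A.gain (A.topOf χ) (A.topOf χ') := by
  have e := A.chiOf_sub (A.topOf_nonneg χ) (A.topOf_nonneg χ')
  rw [(chiOf_topOf A h).2, (chiOf_topOf A h').2] at e
  rw [eq_div_iff (A.gain_pos (A.topOf_nonneg _) (A.topOf_nonneg _)).ne']
  linarith

lemma abs_topOf_sub_le {χ χ' : ℝ} (h : 0 ≤ χ) (h' : 0 ≤ χ') :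
    |A.topOf χ' - A.topOf χ| ≤ |χ' - χ| / A.p A.top := by
  have hg := A.gain_pos (A.topOf_nonneg χ) (A.topOf_nonneg χ')
  rw [A.topOf_sub h h', abs_div, abs_of_pos hg]
  exact div_le_div_of_nonneg_left (abs_nonneg _) (A.pos A.top)
    (A.gain_ge (A.topOf_nonneg _) (A.topOf_nonneg _))

lemma topOf_mono {χ χ' : ℝ} (h : 0 ≤ χ) (hle : χ ≤ χ') : A.topOf χ ≤ A.topOf χ' := by
  have := A.topOf_sub h (h.trans hle)
  have := div_nonneg (sub_nonneg.2 hle)
    (A.gain_pos (A.topOf_nonneg χ) (A.topOf_nonneg χ')).le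
  linarith

lemma continuousOn_topOf : ContinuousOn A.topOf (Ici 0) := by
  have h : LipschitzOnWith (Real.toNNReal (1 / A.p A.top)) A.topOf (Ici 0) := by
    refine LipschitzOnWith.of_dist_le' fun x hx y hy => ?_
    rw [Real.dist_eq, Real.dist_eq, one_div, ← div_eq_inv_mul]
    exact A.abs_topOf_sub_le hy hx
  exact h.continuousOn

lemma hasDerivWithinAt_topOf {χ : ℝ} (hχ : 0 ≤ χ) :
    HasDerivWithinAt A.topOf (A.gain (A.topOf χ) (A.topOf χ))⁻¹ (Ici 0) χ := by
  rw [hasDerivWithinAt_iff_tendsto_slope]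
  have hmap : Filter.Tendsto A.topOf (nhdsWithin χ (Ici 0 \ {χ}))
      (nhdsWithin (A.topOf χ) (Ici 0)) :=
    tendsto_nhdsWithin_iff.2 ⟨((A.continuousOn_topOf χ hχ).mono_left
      (nhdsWithin_mono _ Set.sdiff_subset)), Filter.Eventually.of_forall fun x => A.topOf_nonneg x⟩
  have hcont : ContinuousOn (A.gain (A.topOf χ)) (Ici 0) :=
    continuousOn_finsetSum _ fun r _ => continuousOn_const.div
      (continuousOn_const.mul (continuousOn_const.add (continuousOn_const.mul continuousOn_id)))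
      fun z hz => (mul_pos (A.den_pos (A.topOf_nonneg χ) r) (A.den_pos hz r)).ne'
  have hg := ((hcont (A.topOf χ) (A.topOf_nonneg χ)).tendsto.comp hmap).inv₀
    (A.gain_pos (A.topOf_nonneg χ) (A.topOf_nonneg χ)).ne'
  refine hg.congr' ?_
  filter_upwards [self_mem_nhdsWithin] with x hx
  have hne : x - χ ≠ 0 := sub_ne_zero.2 hx.2
  rw [Function.comp_apply, slope_def_field, A.topOf_sub hχ hx.1, div_div_cancel_left' hne]

lemma dPart_eq (r : γ) (χ : ℝ) : A.dPart r χ
    = A.p r / (1 + A.gapTop r * A.topOf χ) ^ 2 / A.gain (A.topOf χ) (A.topOf χ) := by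
  simp [dPart, gain, sq]

/-- The weighted mean of the gaps with weights `p * h`. -/
noncomputable def meanGap (h : γ → ℝ) : ℝ :=
  (∑ r, A.p r * A.gapTop r * h r) / ∑ r, A.p r * h r

lemma sum_weight_pos {h : γ → ℝ} (hh : ∀ r, 0 < h r) : 0 < ∑ r, A.p r * h r :=
  Finset.sum_pos (fun r _ => mul_pos (A.pos r) (hh r)) ⟨A.top, Finset.mem_univ _⟩

/-- Reweighting towards small gaps lowers the mean gap. -/
lemma meanGap_le {h h' : γ → ℝ} (hh : ∀ r, 0 < h r) (hh' : ∀ r, 0 < h' r)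
    (hr : ∀ r s, A.gapTop r ≤ A.gapTop s → h' s * h r ≤ h' r * h s) :
    A.meanGap h' ≤ A.meanGap h := by
  rw [meanGap, meanGap, div_le_div_iff₀ (A.sum_weight_pos hh') (A.sum_weight_pos hh),
    Finset.sum_mul_sum, Finset.sum_mul_sum]
  have hkey : ∀ r s, 0 ≤ A.p r * A.p s *
      ((A.gapTop r - A.gapTop s) * (h r * h' s - h s * h' r)) := by
    intro r s
    refine mul_nonneg (mul_nonneg (A.pos r).le (A.pos s).le) ?_
    rcases le_total (A.gapTop r) (A.gapTop s) with hle | hle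
    · exact mul_nonneg_of_nonpos_of_nonpos (sub_nonpos.2 hle) (by linarith [hr r s hle])
    · exact mul_nonneg (sub_nonneg.2 hle) (by linarith [hr s r hle])
  have h0 : 0 ≤ ∑ r, ∑ s, A.p r * A.p s *
      ((A.gapTop r - A.gapTop s) * (h r * h' s - h s * h' r)) :=
    Finset.sum_nonneg fun r _ => Finset.sum_nonneg fun s _ => hkey r s
  have hswap : ∀ F : γ → γ → ℝ, ∑ r, ∑ s, F r s = ∑ r, ∑ s, F s r := fun F => Finset.sum_comm
  have e1 := hswap fun r s => A.p r * A.p s * A.gapTop r * (h r * h' s)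
  have e2 := hswap fun r s => A.p r * A.p s * A.gapTop r * (h' r * h s)
  have exp : ∑ r, ∑ s, A.p r * A.p s * ((A.gapTop r - A.gapTop s) * (h r * h' s - h s * h' r))
      = (∑ r, ∑ s, A.p r * A.p s * A.gapTop r * (h r * h' s))
        - (∑ r, ∑ s, A.p r * A.p s * A.gapTop r * (h' r * h s))
        - (∑ r, ∑ s, A.p s * A.p r * A.gapTop s * (h' s * h r))
        + (∑ r, ∑ s, A.p s * A.p r * A.gapTop s * (h s * h' r)) := by
    simp only [← Finset.sum_sub_distrib, ← Finset.sum_add_distrib]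
    exact Finset.sum_congr rfl fun r _ => Finset.sum_congr rfl fun s _ => by ring
  rw [exp] at h0
  have g1 : ∀ u v : γ → ℝ, ∑ r, ∑ s, A.p r * A.gapTop r * u r * (A.p s * v s)
      = ∑ r, ∑ s, A.p r * A.p s * A.gapTop r * (u r * v s) := fun u v =>
    Finset.sum_congr rfl fun r _ => Finset.sum_congr rfl fun s _ => by ring
  rw [g1, g1]
  linarith

lemma meanGap_mem {h : γ → ℝ} (hh : ∀ r, 0 < h r) {T : ℝ} (hT : ∀ r, A.gapTop r ≤ T) :
    0 ≤ A.meanGap h ∧ A.meanGap h ≤ T := by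
  refine ⟨div_nonneg (Finset.sum_nonneg fun r _ =>
    mul_nonneg (mul_nonneg (A.pos r).le (A.gapTop_nonneg r)) (hh r).le) (A.sum_weight_pos hh).le, ?_⟩
  rw [meanGap, div_le_iff₀ (A.sum_weight_pos hh), Finset.mul_sum]
  refine Finset.sum_le_sum fun r _ => ?_
  calc A.p r * A.gapTop r * h r = A.gapTop r * (A.p r * h r) := by ring
    _ ≤ _ := mul_le_mul_of_nonneg_right (hT r) (mul_nonneg (A.pos r).le (hh r).le)

/-- The weights of `dPart`. -/
noncomputable def sqWeight (z : ℝ) (r : γ) : ℝ := ((1 + A.gapTop r * z) ^ 2)⁻¹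

lemma sqWeight_pos {z : ℝ} (hz : 0 ≤ z) (r : γ) : 0 < A.sqWeight z r :=
  inv_pos.2 (pow_pos (A.den_pos hz r) 2)

lemma dPhi_eq (χ : ℝ) : A.dPhi χ = A.lam A.top - A.meanGap (A.sqWeight (A.topOf χ)) := by
  have hD : ∑ s, A.p s / (1 + A.gapTop s * A.topOf χ) ^ 2
      = ∑ s, A.p s * A.sqWeight (A.topOf χ) s :=
    Finset.sum_congr rfl fun s _ => div_eq_mul_inv _ _
  have hpos := A.sum_weight_pos (A.sqWeight_pos (A.topOf_nonneg χ))
  rw [eq_sub_iff_add_eq, dPhi, meanGap]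
  simp only [dPart, hD]
  rw [← sub_eq_zero]
  have e : ∀ r, A.lam r * (A.p r / (1 + A.gapTop r * A.topOf χ) ^ 2
      / ∑ s, A.p s * A.sqWeight (A.topOf χ) s)
      = (A.lam A.top * (A.p r * A.sqWeight (A.topOf χ) r)
        - A.p r * A.gapTop r * A.sqWeight (A.topOf χ) r)
        / ∑ s, A.p s * A.sqWeight (A.topOf χ) s := fun r => by
    rw [gapTop, sqWeight, gapTop]; ring
  rw [Finset.sum_congr rfl fun r _ => e r, ← Finset.sum_div, Finset.sum_sub_distrib,
    ← Finset.mul_sum]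
  field_simp
  ring

lemma scale_gapTop (t : ℝ) (ht : 0 ≤ t) (r : γ) : (A.scale t ht).gapTop r = t * A.gapTop r := by
  simp [gapTop, scale, mul_sub]

lemma scale_chiOf (t : ℝ) (ht : 0 ≤ t) (c : ℝ) :
    A.chiOf (t * c) = t * (A.scale t ht).chiOf c := by
  simp only [chiOf, Finset.mul_sum, scale_gapTop]
  refine Finset.sum_congr rfl fun r _ => ?_
  rw [show (A.scale t ht).p r = A.p r from rfl, show A.gapTop r * (t * c) = t * A.gapTop r * c by ring]
  ring

lemma scale_dPart (t : ℝ) (ht : 0 ≤ t) (r : γ) {χ : ℝ} (hχ : 0 ≤ χ) :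
    (A.scale t ht).dPart r χ = A.dPart r (t * χ) := by
  have hz : t * (A.scale t ht).topOf χ = A.topOf (t * χ) := by
    obtain ⟨hz0, hz1⟩ := chiOf_topOf (A.scale t ht) hχ
    have e := A.scale_chiOf t ht ((A.scale t ht).topOf χ)
    rw [hz1] at e
    rw [← e, topOf_chiOf A (mul_nonneg ht hz0)]
  have hg : ∀ s, (A.scale t ht).gapTop s * (A.scale t ht).topOf χ
      = A.gapTop s * A.topOf (t * χ) := fun s => by
    rw [← hz, scale_gapTop]; ring
  simp only [dPart, hg]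
  rfl

lemma dEnergy_eq (t : ℝ) {χ : ℝ} (hχ : 0 ≤ χ) : A.dEnergy t χ = A.dPhi (max t 0 * χ) := by
  simp only [dEnergy, dPhi, A.scale_dPart _ _ _ hχ]

end Atoms

open Atoms

theorem part_sum {χ : ℝ} (hχ : 0 ≤ χ) : ∑ r, A.part r χ = χ := by
  refine Eq.trans ?_ (chiOf_topOf A hχ).2
  exact Finset.sum_congr rfl fun r _ => rfl

theorem part_nonneg {χ : ℝ} (hχ : 0 ≤ χ) (r : γ) : 0 ≤ A.part r χ :=
  div_nonneg (mul_nonneg (A.pos r).le (chiOf_topOf A hχ).1)
    (A.den_pos (chiOf_topOf A hχ).1 r).le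

theorem continuousOn_dPart (r : γ) : ContinuousOn (A.dPart r) (Ici 0) := by
  have hd : ∀ s, ContinuousOn (fun χ => A.p s / (1 + A.gapTop s * A.topOf χ) ^ 2) (Ici 0) :=
    fun s => continuousOn_const.div
      ((continuousOn_const.add (continuousOn_const.mul A.continuousOn_topOf)).pow 2)
      fun χ _ => (pow_pos (A.den_pos (A.topOf_nonneg χ) s) 2).ne'
  refine (hd r).div (continuousOn_finsetSum _ fun s _ => hd s) fun χ _ => ?_
  exact (Finset.sum_pos (fun s _ => div_pos (A.pos s) (pow_pos (A.den_pos (A.topOf_nonneg χ) s) 2))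
    ⟨A.top, Finset.mem_univ _⟩).ne'

theorem hasDerivWithinAt_part (r : γ) {χ : ℝ} (hχ : 0 ≤ χ) :
    HasDerivWithinAt (A.part r) (A.dPart r χ) (Ici 0) χ := by
  have hz := A.hasDerivWithinAt_topOf hχ
  have hne := (A.den_pos (A.topOf_nonneg χ) r).ne'
  have h := (hz.const_mul (A.p r)).div ((hz.const_mul (A.gapTop r)).const_add 1) hne
  rw [A.dPart_eq]
  refine h.congr_deriv ?_
  rw [div_eq_mul_inv (A.p r / _)]
  ring

theorem dPart_nonneg (r : γ) (χ : ℝ) : 0 ≤ A.dPart r χ :=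
  div_nonneg (div_nonneg (A.pos r).le (sq_nonneg _))
    (Finset.sum_nonneg fun s _ => div_nonneg (A.pos s).le (sq_nonneg _))

theorem dPart_sum (χ : ℝ) (_hχ : 0 ≤ χ) : ∑ r, A.dPart r χ = 1 := by
  simp only [Atoms.dPart, ← Finset.sum_div]
  exact div_self (Finset.sum_pos
    (fun s _ => div_pos (A.pos s) (pow_pos (A.den_pos (A.topOf_nonneg χ) s) 2))
    ⟨A.top, Finset.mem_univ _⟩).ne'

/-- Convexity of `∑_r lam r * part r`. -/
theorem dPhi_monotoneOn : MonotoneOn A.dPhi (Ici 0) := by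
  intro χ hχ χ' _ hle
  have hz := A.topOf_mono hχ hle
  have h0 := A.topOf_nonneg χ
  have h0' := A.topOf_nonneg χ'
  rw [A.dPhi_eq, A.dPhi_eq]
  refine sub_le_sub_left (A.meanGap_le (A.sqWeight_pos h0) (A.sqWeight_pos h0')
    fun r s hrs => ?_) _
  rw [Atoms.sqWeight, Atoms.sqWeight, Atoms.sqWeight, Atoms.sqWeight, ← mul_inv, ← mul_inv,
    ← mul_pow, ← mul_pow]
  refine inv_anti₀ (pow_pos (mul_pos (A.den_pos h0' r) (A.den_pos h0 s)) 2)
    (pow_le_pow_left₀ (mul_pos (A.den_pos h0' r) (A.den_pos h0 s)).le ?_ 2)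
  nlinarith [mul_nonneg (sub_nonneg.2 hrs) (sub_nonneg.2 hz)]

theorem dPhi_mem {χ : ℝ} (hχ : 0 ≤ χ) {a b : ℝ} (ha : ∀ r, a ≤ A.lam r)
    (hb : ∀ r, A.lam r ≤ b) : A.dPhi χ ∈ Icc a b := by
  have h1 : ∑ r, a * A.dPart r χ ≤ A.dPhi χ :=
    Finset.sum_le_sum fun r _ => mul_le_mul_of_nonneg_right (ha r) (dPart_nonneg A r χ)
  have h2 : A.dPhi χ ≤ ∑ r, b * A.dPart r χ :=
    Finset.sum_le_sum fun r _ => mul_le_mul_of_nonneg_right (hb r) (dPart_nonneg A r χ)
  rw [← Finset.mul_sum, dPart_sum A χ hχ, mul_one] at h1 h2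
  exact ⟨h1, h2⟩

theorem dPhi_lipschitz : ∃ C, ∀ χ ∈ Icc (0 : ℝ) 1, ∀ χ' ∈ Icc (0 : ℝ) 1,
    |A.dPhi χ - A.dPhi χ'| ≤ C * |χ - χ'| := by
  set π₀ := A.p A.top
  have hπ : 0 < π₀ := A.pos A.top
  set T := ∑ r, A.gapTop r with hT
  have hTr : ∀ r, A.gapTop r ≤ T := fun r =>
    Finset.single_le_sum (fun s _ => A.gapTop_nonneg s) (Finset.mem_univ r)
  have hT0 : 0 ≤ T := Finset.sum_nonneg fun s _ => A.gapTop_nonneg s
  refine ⟨(2 * T * T + T * (2 * T)) / π₀ / π₀, fun χ hχ χ' hχ' => ?_⟩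
  set z := A.topOf χ
  set z' := A.topOf χ'
  have hz : 0 ≤ z := A.topOf_nonneg χ
  have hz' : 0 ≤ z' := A.topOf_nonneg χ'
  have hw : ∀ r, |A.sqWeight z r - A.sqWeight z' r| ≤ 2 * A.gapTop r * |z - z'| := by
    intro r
    have hd := A.den_pos hz r
    have hd' := A.den_pos hz' r
    have h1 : 1 ≤ 1 + A.gapTop r * z := by
      have := mul_nonneg (A.gapTop_nonneg r) hz; linarith
    have h1' : 1 ≤ 1 + A.gapTop r * z' := by
      have := mul_nonneg (A.gapTop_nonneg r) hz'; linarith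
    set d := 1 + A.gapTop r * z
    set d' := 1 + A.gapTop r * z'
    have e : A.sqWeight z r - A.sqWeight z' r
        = (A.gapTop r * (z' - z)) * (d⁻¹ * d'⁻¹ * (d⁻¹ + d'⁻¹)) := by
      rw [show A.gapTop r * (z' - z) = d' - d by simp only [d, d']; ring, Atoms.sqWeight,
        Atoms.sqWeight]
      change (d ^ 2)⁻¹ - (d' ^ 2)⁻¹ = _
      field_simp
      ring
    rw [e, abs_mul, abs_mul, abs_of_nonneg (A.gapTop_nonneg r), abs_sub_comm z' z,
      abs_of_pos (by positivity : 0 < d⁻¹ * d'⁻¹ * (d⁻¹ + d'⁻¹))]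
    have a1 := inv_le_one_of_one_le₀ h1
    have a1' := inv_le_one_of_one_le₀ h1'
    calc A.gapTop r * |z - z'| * (d⁻¹ * d'⁻¹ * (d⁻¹ + d'⁻¹))
        ≤ A.gapTop r * |z - z'| * (1 * 1 * (1 + 1)) := by
          have := A.gapTop_nonneg r
          gcongr
      _ = _ := by ring
  set D := ∑ r, A.p r * A.sqWeight z r
  set D' := ∑ r, A.p r * A.sqWeight z' r
  have hDlow : ∀ y, 0 ≤ y → π₀ ≤ ∑ r, A.p r * A.sqWeight y r := fun y hy => by
    refine le_trans (le_of_eq ?_) (Finset.single_le_sum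
      (f := fun r => A.p r * A.sqWeight y r)
      (fun r _ => mul_nonneg (A.pos r).le (A.sqWeight_pos hy r).le) (Finset.mem_univ A.top))
    simp [Atoms.sqWeight, gapTop_top, π₀]
  have hbound : ∀ f : γ → ℝ, ∀ F : ℝ, (∀ r, |f r| ≤ F) →
      |∑ r, A.p r * f r * A.sqWeight z r - ∑ r, A.p r * f r * A.sqWeight z' r|
        ≤ F * (2 * T) * |z - z'| := by
    intro f F hf
    rw [← Finset.sum_sub_distrib]
    refine (Finset.abs_sum_le_sum_abs _ _).trans ?_
    calc ∑ r, |A.p r * f r * A.sqWeight z r - A.p r * f r * A.sqWeight z' r|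
        ≤ ∑ r, A.p r * (F * (2 * T * |z - z'|)) := by
          refine Finset.sum_le_sum fun r _ => ?_
          rw [← mul_sub, abs_mul, abs_mul, abs_of_pos (A.pos r), mul_assoc]
          refine mul_le_mul_of_nonneg_left (mul_le_mul (hf r) ((hw r).trans ?_) (abs_nonneg _)
            ((abs_nonneg _).trans (hf r))) (A.pos r).le
          have := hTr r
          gcongr
      _ = _ := by rw [← Finset.sum_mul, A.sum_p]; ring
  have hN := hbound A.gapTop T fun r => by
    rw [abs_of_nonneg (A.gapTop_nonneg r)]; exact hTr r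
  have hD : |D - D'| ≤ 2 * T * |z - z'| := by
    simpa [D, D'] using hbound (fun _ => 1) 1 (fun _ => by simp)
  obtain ⟨hm0, hm1⟩ := A.meanGap_mem (A.sqWeight_pos hz') hTr
  have hdiff : |A.meanGap (A.sqWeight z) - A.meanGap (A.sqWeight z')|
      ≤ (2 * T * T + T * (2 * T)) * |z - z'| / π₀ := by
    have hDp := lt_of_lt_of_le hπ (hDlow z hz)
    have e : A.meanGap (A.sqWeight z) - A.meanGap (A.sqWeight z')
        = ((∑ r, A.p r * A.gapTop r * A.sqWeight z r - ∑ r, A.p r * A.gapTop r * A.sqWeight z' r)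
          - A.meanGap (A.sqWeight z') * (D - D')) / D := by
      have hDne : D ≠ 0 := hDp.ne'
      have hDp' : D' ≠ 0 := (lt_of_lt_of_le hπ (hDlow z' hz')).ne'
      rw [Atoms.meanGap, Atoms.meanGap, eq_div_iff hDp.ne']
      change (_ / D - _ / D') * D = _ - _ / D' * (D - D')
      simp only [sub_mul, div_mul_cancel₀ _ hDne]
      field_simp
      ring
    rw [e, abs_div, abs_of_pos hDp]
    refine div_le_div₀ (by positivity) ?_ hπ (hDlow z hz)
    refine (abs_sub _ _).trans ?_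
    rw [abs_mul, abs_of_nonneg hm0]
    have := mul_le_mul hm1 hD (abs_nonneg _) hT0
    linarith
  rw [A.dPhi_eq, A.dPhi_eq, sub_sub_sub_cancel_left, abs_sub_comm]
  refine hdiff.trans ?_
  have hzz : |z - z'| ≤ |χ - χ'| / π₀ := A.abs_topOf_sub_le hχ'.1 hχ.1
  calc (2 * T * T + T * (2 * T)) * |z - z'| / π₀
      ≤ (2 * T * T + T * (2 * T)) * (|χ - χ'| / π₀) / π₀ := by gcongr
    _ = _ := by ring

/-- Stability of the inversion of the loop equations. -/
theorem loop_stable {c : γ → ℝ} {χ e : ℝ} (hc : ∀ r, 0 ≤ c r) (hsum : ∑ r, c r = χ)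
    (he : ∀ r, |A.p A.top * c r - A.p r * c A.top + A.gapTop r * c r * c A.top| ≤ e) :
    ∀ r, |c r - A.part r χ| ≤ 3 * (Fintype.card γ : ℝ) * e / A.p A.top ^ 2 := by
  intro r
  have hπ := A.pos A.top
  set z := c A.top / A.p A.top with hz
  have hz0 : 0 ≤ z := div_nonneg (hc _) hπ.le
  have he0 : 0 ≤ e := (abs_nonneg _).trans (he r)
  have hdev : ∀ s, |c s - A.p s * z / (1 + A.gapTop s * z)| ≤ e / A.p A.top := by
    intro s
    have hd := A.den_pos hz0 s
    have h1 : 1 ≤ 1 + A.gapTop s * z := by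
      have := mul_nonneg (A.gapTop_nonneg s) hz0; linarith
    have ediv : c s - A.p s * z / (1 + A.gapTop s * z)
        = (A.p A.top * c s - A.p s * c A.top + A.gapTop s * c s * c A.top)
          / (A.p A.top * (1 + A.gapTop s * z)) := by
      rw [show c A.top = A.p A.top * z by rw [hz, mul_div_cancel₀ _ hπ.ne'],
        eq_div_iff (mul_pos hπ hd).ne', sub_mul, div_mul_eq_mul_div,
        mul_div_assoc, mul_div_assoc, div_self hd.ne']
      ring
    rw [ediv, abs_div, abs_of_pos (mul_pos hπ hd)]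
    exact div_le_div₀ he0 (he s) hπ (le_mul_of_one_le_right hπ.le h1)
  have hχ0 : 0 ≤ χ := hsum ▸ Finset.sum_nonneg fun s _ => hc s
  have hchi : |χ - A.chiOf z| ≤ (Fintype.card γ : ℝ) * (e / A.p A.top) := by
    rw [← hsum, Atoms.chiOf, ← Finset.sum_sub_distrib]
    refine (Finset.abs_sum_le_sum_abs _ _).trans
      ((Finset.sum_le_sum fun s _ => hdev s).trans (le_of_eq ?_))
    simp
  obtain ⟨hw0, hw1⟩ := chiOf_topOf A hχ0
  set w := A.topOf χ
  have hchi0 : 0 ≤ A.chiOf z := (mul_nonneg hπ.le hz0).trans (A.chiOf_ge hz0)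
  have hzw : |z - w| ≤ (Fintype.card γ : ℝ) * e / A.p A.top ^ 2 := by
    have h := A.abs_topOf_sub_le hχ0 hchi0
    rw [topOf_chiOf A hz0] at h
    refine h.trans ?_
    rw [abs_sub_comm]
    calc |χ - A.chiOf z| / A.p A.top ≤ (Fintype.card γ : ℝ) * (e / A.p A.top) / A.p A.top :=
          div_le_div_of_nonneg_right hchi hπ.le
      _ = _ := by ring
  have hpart : |A.p r * z / (1 + A.gapTop r * z) - A.part r χ| ≤ |z - w| := by
    have hd := A.den_pos hz0 r
    have hd' := A.den_pos hw0 r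
    have hg0 := A.gapTop_nonneg r
    rw [Atoms.part]
    have e1 : A.p r * z / (1 + A.gapTop r * z) - A.p r * w / (1 + A.gapTop r * w)
        = A.p r * (z - w) / ((1 + A.gapTop r * z) * (1 + A.gapTop r * w)) := by
      rw [div_sub_div _ _ hd.ne' hd'.ne']; congr 1; ring
    rw [e1, abs_div, abs_mul, abs_of_pos (A.pos r), abs_of_pos (mul_pos hd hd'),
      div_le_iff₀ (mul_pos hd hd'), mul_comm (A.p r)]
    refine mul_le_mul_of_nonneg_left ?_ (abs_nonneg _)
    nlinarith [A.p_le_one r, mul_nonneg hg0 hz0, mul_nonneg hg0 hw0,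
      mul_nonneg (mul_nonneg hg0 hz0) (mul_nonneg hg0 hw0)]
  have hM : (1:ℝ) ≤ Fintype.card γ := by
    exact_mod_cast Fintype.card_pos_iff.2 ⟨A.top⟩
  have hA : e / A.p A.top ≤ (Fintype.card γ : ℝ) * e / A.p A.top ^ 2 := by
    rw [sq, ← div_div]
    refine div_le_div_of_nonneg_right ?_ hπ.le
    rw [le_div_iff₀ hπ]
    calc e * A.p A.top ≤ e * 1 := mul_le_mul_of_nonneg_left (A.p_le_one _) he0
      _ ≤ _ := by nlinarith
  have hnn : 0 ≤ (Fintype.card γ : ℝ) * e / A.p A.top ^ 2 := by positivity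
  calc |c r - A.part r χ| ≤ |c r - A.p r * z / (1 + A.gapTop r * z)|
        + |A.p r * z / (1 + A.gapTop r * z) - A.part r χ| := abs_sub_le _ _ _
    _ ≤ e / A.p A.top + |z - w| := add_le_add (hdev r) hpart
    _ ≤ 2 * ((Fintype.card γ : ℝ) * e / A.p A.top ^ 2) := by linarith
    _ ≤ _ := by
        rw [show 3 * (Fintype.card γ : ℝ) * e / A.p A.top ^ 2
          = 3 * ((Fintype.card γ : ℝ) * e / A.p A.top ^ 2) by ring]
        linarith

theorem dEnergy_monotoneOn (t : ℝ) : MonotoneOn (A.dEnergy t) (Ici 0) := by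
  intro χ hχ χ' hχ' hle
  rw [A.dEnergy_eq t hχ, A.dEnergy_eq t hχ']
  exact dPhi_monotoneOn A (mul_nonneg (le_max_right t 0) hχ)
    (mul_nonneg (le_max_right t 0) hχ') (mul_le_mul_of_nonneg_left hle (le_max_right t 0))

theorem dEnergy_mem (t : ℝ) {χ : ℝ} (hχ : 0 ≤ χ) {a b : ℝ} (ha : ∀ r, a ≤ A.lam r)
    (hb : ∀ r, A.lam r ≤ b) : A.dEnergy t χ ∈ Icc a b := by
  rw [A.dEnergy_eq t hχ]
  exact dPhi_mem A (mul_nonneg (le_max_right t 0) hχ) ha hb

theorem continuousOn_dPhi : ContinuousOn A.dPhi (Ici 0) :=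
  continuousOn_finsetSum _ fun r _ => continuousOn_const.mul (continuousOn_dPart A r)

theorem dEnergy_continuousOn : ContinuousOn (fun x : ℝ × ℝ => A.dEnergy x.1 x.2)
    (Set.univ ×ˢ Set.Ici (0 : ℝ)) := by
  have h : ContinuousOn (fun x : ℝ × ℝ => A.dPhi (max x.1 0 * x.2)) (Set.univ ×ˢ Ici (0:ℝ)) :=
    (continuousOn_dPhi A).comp (Continuous.continuousOn (by fun_prop))
      fun x hx => Set.mem_Ici.2 (mul_nonneg (le_max_right _ _) hx.2)
  exact h.congr fun x hx => A.dEnergy_eq x.1 hx.2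

theorem law_prob : IsProbabilityMeasure A.law := by
  constructor
  rw [Atoms.law, Measure.finsetSum_apply]
  simp only [Measure.smul_apply, smul_eq_mul, measure_univ, mul_one]
  rw [← ENNReal.ofReal_sum_of_nonneg fun r _ => (A.pos r).le, A.sum_p, ENNReal.ofReal_one]

theorem law_support : A.law.support = Set.range A.lam := by
  ext x
  rw [Measure.mem_support_iff_forall]
  have hap : ∀ U : Set ℝ, A.law U
      = ∑ r, ENNReal.ofReal (A.p r) * Measure.dirac (A.lam r) U := fun U => by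
    rw [Atoms.law, Measure.finsetSum_apply]; rfl
  constructor
  · intro h
    by_contra hx
    have h1 := h (Set.range A.lam)ᶜ ((Set.finite_range A.lam).isClosed.isOpen_compl.mem_nhds hx)
    rw [hap] at h1
    simp at h1
  · rintro ⟨r, rfl⟩ U hU
    rw [hap]
    refine lt_of_lt_of_le ?_ (Finset.single_le_sum
      (f := fun s => ENNReal.ofReal (A.p s) * Measure.dirac (A.lam s) U)
      (fun s _ => zero_le) (Finset.mem_univ r))
    rw [Measure.dirac_apply_of_mem (mem_of_mem_nhds hU), mul_one]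
    exact ENNReal.ofReal_pos.2 (A.pos r)

theorem law_integral (f : ℝ → ℝ) : ∫ a, f a ∂A.law = ∑ r, A.p r * f (A.lam r) := by
  rw [Atoms.law, integral_finsetSum_measure fun r _ =>
    (integrable_dirac (by finiteness)).smul_measure ENNReal.ofReal_ne_top]
  refine Finset.sum_congr rfl fun r _ => ?_
  rw [integral_smul_measure, integral_dirac, ENNReal.toReal_ofReal (A.pos r).le, smul_eq_mul]

theorem law_sSup : sSup A.law.support = A.lam A.top := by
  rw [law_support A]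
  exact IsGreatest.csSup_eq ⟨⟨A.top, rfl⟩, by rintro _ ⟨r, rfl⟩; exact A.le_top r⟩

theorem omegaInv_atoms {χ : ℝ} (hχ : 0 < χ) :
    omegaInv A.law χ = A.lam A.top + (A.topOf χ)⁻¹ := by
  obtain ⟨hz0, hz1⟩ := chiOf_topOf A hχ.le
  have hz : 0 < A.topOf χ := by
    rcases hz0.eq_or_lt with h | h
    · rw [← h, A.chiOf_zero] at hz1; linarith
    · exact h
  have hG : ∀ c, 0 < c → ∫ a, (A.lam A.top + c⁻¹ - a)⁻¹ ∂A.law = A.chiOf c := by
    intro c hc
    rw [law_integral A, Atoms.chiOf]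
    refine Finset.sum_congr rfl fun r _ => ?_
    rw [show A.lam A.top + c⁻¹ - A.lam r = (1 + A.gapTop r * c) / c by
      rw [Atoms.gapTop]; field_simp; ring, inv_div, mul_div_assoc]
  have hset : {ω | sSup A.law.support < ω ∧ ∫ a, (ω - a)⁻¹ ∂A.law ≤ χ}
      = Ici (A.lam A.top + (A.topOf χ)⁻¹) := by
    ext ω
    rw [law_sSup A]
    constructor
    · rintro ⟨h1, h2⟩
      set c := (ω - A.lam A.top)⁻¹ with hc
      have hcp : 0 < c := inv_pos.2 (sub_pos.2 h1)
      have hω : ω = A.lam A.top + c⁻¹ := by rw [hc, inv_inv]; ring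
      rw [hω, hG c hcp] at h2
      have : c ≤ A.topOf χ := (A.chiOf_le_iff hcp.le hz0).1 (hz1.symm ▸ h2)
      have := inv_anti₀ hcp this
      simp only [Set.mem_Ici]
      rw [hω]; linarith
    · intro h
      simp only [Set.mem_Ici] at h
      have hzi := inv_pos.2 hz
      have h1 : A.lam A.top < ω := by linarith
      refine ⟨h1, ?_⟩
      set c := (ω - A.lam A.top)⁻¹ with hc
      have hcp : 0 < c := inv_pos.2 (sub_pos.2 h1)
      have hω : ω = A.lam A.top + c⁻¹ := by rw [hc, inv_inv]; ring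
      rw [hω, hG c hcp]
      refine le_of_le_of_eq ((A.chiOf_le_iff hcp.le hz0).2 ?_) hz1
      rw [hc, inv_le_comm₀ (sub_pos.2 h1) hz]
      linarith
  rw [omegaInv, hset, csInf_Ici]

theorem sum_lam_part {χ : ℝ} (hχ : 0 < χ) :
    ∑ r, A.lam r * A.part r χ = χ * rTrans A.law χ := by
  obtain ⟨hz0, hz1⟩ := chiOf_topOf A hχ.le
  have hz : A.topOf χ ≠ 0 := by
    intro h; rw [h, A.chiOf_zero] at hz1; linarith
  rw [rTrans, omegaInv_atoms A hχ]
  have e : ∀ r, A.lam r * A.part r χ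
      = A.lam A.top * A.part r χ - (A.p r - A.part r χ / A.topOf χ) := by
    intro r
    have hd := (A.den_pos hz0 r).ne'
    have h : A.part r χ / A.topOf χ = A.p r / (1 + A.gapTop r * A.topOf χ) := by
      rw [Atoms.part]; field_simp
    rw [h, Atoms.part, show A.lam r = A.lam A.top - A.gapTop r by rw [Atoms.gapTop]; ring]
    field_simp
    ring
  rw [Finset.sum_congr rfl fun r _ => e r, Finset.sum_sub_distrib, Finset.sum_sub_distrib,
    ← Finset.mul_sum, ← Finset.sum_div, part_sum A hχ.le, A.sum_p, mul_sub,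
    mul_inv_cancel₀ hχ.ne', mul_add, div_eq_mul_inv]
  ring

/-- The R-transform is the integral of `dPhi` along the scaling of the atoms. -/
theorem rTrans_atoms {χ : ℝ} (hχ : 0 < χ) :
    (∫ t in (0 : ℝ)..1, A.dEnergy t χ) = rTrans A.law χ := by
  set F : ℝ → ℝ := fun t => ∑ r, A.lam r * A.part r (t * χ) with hF
  have hmaps : MapsTo (fun t : ℝ => t * χ) (Icc 0 1) (Ici 0) := fun t ht =>
    mul_nonneg ht.1 hχ.le
  have hcont : ContinuousOn F (Icc 0 1) :=
    continuousOn_finsetSum _ fun r _ => continuousOn_const.mul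
      (ContinuousOn.comp (fun y hy => (hasDerivWithinAt_part A r hy).continuousWithinAt)
        (continuousOn_id.mul continuousOn_const) hmaps)
  have hderiv : ∀ t ∈ Ioo (0:ℝ) 1, HasDerivAt F (χ * A.dPhi (t * χ)) t := by
    intro t ht
    have hpos : 0 < t * χ := mul_pos ht.1 hχ
    have h1 : HasDerivAt (fun t : ℝ => t * χ) χ t := by
      simpa using (hasDerivAt_id t).mul_const χ
    have h2 : ∀ r, HasDerivAt (fun t => A.lam r * A.part r (t * χ))
        (A.lam r * (A.dPart r (t * χ) * χ)) t := fun r =>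
      (((hasDerivWithinAt_part A r hpos.le).hasDerivAt (Ici_mem_nhds hpos)).comp t h1).const_mul _
    refine (HasDerivAt.fun_sum fun r _ => h2 r).congr_deriv ?_
    rw [Atoms.dPhi, Finset.mul_sum]
    exact Finset.sum_congr rfl fun r _ => by ring
  have hint : IntervalIntegrable (fun t => χ * A.dPhi (t * χ)) volume 0 1 :=
    ContinuousOn.intervalIntegrable_of_Icc zero_le_one (continuousOn_const.mul
      ((continuousOn_dPhi A).comp (continuousOn_id.mul continuousOn_const) hmaps))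
  have hftc := intervalIntegral.integral_eq_sub_of_hasDerivAt_of_le zero_le_one hcont hderiv hint
  rw [intervalIntegral.integral_const_mul] at hftc
  have h0 : F 0 = 0 := by simp [hF, Atoms.part, A.topOf_zero]
  have h1 : F 1 = χ * rTrans A.law χ := by simp [hF, sum_lam_part A hχ]
  rw [h0, h1, sub_zero] at hftc
  have hcongr : (∫ t in (0 : ℝ)..1, A.dEnergy t χ) = ∫ t in (0 : ℝ)..1, A.dPhi (t * χ) := by
    refine intervalIntegral.integral_congr fun t ht => ?_
    rw [Set.uIcc_of_le zero_le_one] at ht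
    simp only [A.dEnergy_eq t hχ.le, max_eq_left ht.1]
  rw [hcongr]
  exact mul_left_cancel₀ hχ.ne' hftc

end Vale.Agent.P166.Parisi
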