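import Vale.Agent.P166.Parisi.Spec.General
import Vale.Agent.P166.Parisi.Spec.Atoms

/-!
Module S, part 3: quantiles, equally weighted discretisations, their Cauchy and R-transforms.
-/

namespace Vale.Agent.P166.Parisi

open MeasureTheory Set Filter Topology
open scoped BoundedContinuousFunction

variable {μ : Measure ℝ}

/-! ### Quantiles -/

lemma real_Iic_sSup [IsProbabilityMeasure μ] (hμ : IsCompact μ.support) :
    μ.real (Iic (sSup μ.support)) = 1 := by
  have h : ∀ᵐ a ∂μ, a ∈ Iic (sSup μ.support) := (supp_bounds hμ).mono fun a ha => ha.2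
  rw [measureReal_def, (prob_compl_eq_zero_iff measurableSet_Iic).1 (ae_iff.1 h), ENNReal.toReal_one]

lemma real_Iio_sInf [IsProbabilityMeasure μ] (hμ : IsCompact μ.support) :
    μ.real (Iio (sInf μ.support)) = 0 := by
  have h : μ (Iio (sInf μ.support)) = 0 := by
    refine measure_mono_null ?_ (Measure.measure_compl_support (μ := μ))
    intro a ha h
    exact absurd (csInf_le hμ.bddBelow h) (not_le.2 ha)
  simp [measureReal_def, h]

lemma quantile_bdd [IsProbabilityMeasure μ] (hμ : IsCompact μ.support) {u : ℝ} (h0 : 0 < u) :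
    BddBelow {a | u ≤ μ.real (Iic a)} := by
  refine ⟨sInf μ.support, fun a ha => ?_⟩
  by_contra hc
  have h := measureReal_mono (μ := μ) (Set.Iic_subset_Iio.2 (not_le.1 hc))
  rw [real_Iio_sInf hμ] at h
  linarith [show u ≤ μ.real (Iic a) from ha]

lemma quantile_nonempty [IsProbabilityMeasure μ] (hμ : IsCompact μ.support) {u : ℝ} (h1 : u ≤ 1) :
    sSup μ.support ∈ {a | u ≤ μ.real (Iic a)} := by
  simp [real_Iic_sSup hμ, h1]

lemma quantile_mem [IsProbabilityMeasure μ] (hμ : IsCompact μ.support) {u : ℝ} (h0 : 0 < u)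
    (h1 : u ≤ 1) : sInf μ.support ≤ quantile μ u ∧ quantile μ u ≤ sSup μ.support := by
  refine ⟨le_csInf ⟨_, quantile_nonempty hμ h1⟩ fun a ha => ?_,
    csInf_le (quantile_bdd hμ h0) (quantile_nonempty hμ h1)⟩
  by_contra hc
  have h := measureReal_mono (μ := μ) (Set.Iic_subset_Iio.2 (not_le.1 hc))
  rw [real_Iio_sInf hμ] at h
  linarith [show u ≤ μ.real (Iic a) from ha]

lemma le_real_quantile [IsProbabilityMeasure μ] (hμ : IsCompact μ.support) {u : ℝ} (h1 : u ≤ 1) :
    u ≤ μ.real (Iic (quantile μ u)) := by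
  have hc := (ProbabilityTheory.cdf μ).right_continuous (quantile μ u)
  have hev : ∀ᶠ a in 𝓝[>] (quantile μ u), u ≤ (ProbabilityTheory.cdf μ : ℝ → ℝ) a := by
    filter_upwards [self_mem_nhdsWithin] with a ha
    obtain ⟨b, hb, hba⟩ := exists_lt_of_csInf_lt ⟨_, quantile_nonempty hμ h1⟩ ha
    rw [ProbabilityTheory.cdf_eq_real]
    exact le_trans hb (measureReal_mono (Iic_subset_Iic.2 hba.le))
  have h := ge_of_tendsto (hc.tendsto.mono_left (nhdsWithin_mono _ Ioi_subset_Ici_self)) hev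
  rwa [ProbabilityTheory.cdf_eq_real] at h

lemma quantile_le_iff [IsProbabilityMeasure μ] (hμ : IsCompact μ.support) {u : ℝ} (h0 : 0 < u)
    (h1 : u ≤ 1) {a : ℝ} : quantile μ u ≤ a ↔ u ≤ μ.real (Iic a) :=
  ⟨fun h => (le_real_quantile hμ h1).trans (measureReal_mono (Iic_subset_Iic.2 h)),
    fun h => csInf_le (quantile_bdd hμ h0) h⟩

lemma quantile_mono [IsProbabilityMeasure μ] (hμ : IsCompact μ.support) {u v : ℝ} (h0 : 0 < u)
    (huv : u ≤ v) (h1 : v ≤ 1) : quantile μ u ≤ quantile μ v :=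
  (quantile_le_iff hμ h0 (huv.trans h1)).2 (huv.trans (le_real_quantile hμ h1))

lemma real_Iio_quantile_le [IsProbabilityMeasure μ] (hμ : IsCompact μ.support) {u : ℝ} (h0 : 0 < u)
    (h1 : u ≤ 1) : μ.real (Iio (quantile μ u)) ≤ u := by
  have hU : Tendsto (fun n : ℕ => μ (Iic (quantile μ u - 1 / ((n:ℝ) + 1)))) atTop
      (𝓝 (μ (Iio (quantile μ u)))) := by
    have e : Iio (quantile μ u) = ⋃ n : ℕ, Iic (quantile μ u - 1 / ((n:ℝ) + 1)) := by
      ext a
      simp only [mem_Iio, mem_iUnion, mem_Iic]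
      constructor
      · intro h
        obtain ⟨n, hn⟩ := exists_nat_one_div_lt (sub_pos.2 h)
        exact ⟨n, by linarith⟩
      · rintro ⟨n, hn⟩
        have : (0:ℝ) < 1 / ((n:ℝ) + 1) := by positivity
        linarith
    rw [e]
    refine tendsto_measure_iUnion_atTop fun a b hab => Iic_subset_Iic.2 ?_
    have : (1:ℝ) / ((b:ℝ) + 1) ≤ 1 / ((a:ℝ) + 1) :=
      one_div_le_one_div_of_le (by positivity) (by exact_mod_cast Nat.succ_le_succ hab)
    linarith
  have hU' := (ENNReal.tendsto_toReal (measure_ne_top μ _)).comp hU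
  refine le_of_tendsto hU' (Eventually.of_forall fun n => ?_)
  by_contra hc
  have := (quantile_le_iff hμ h0 h1 (a := quantile μ u - 1 / ((n:ℝ) + 1))).2 (not_le.1 hc).le
  have : (0:ℝ) < 1 / ((n:ℝ) + 1) := by positivity
  linarith

lemma qAtom_mem [IsProbabilityMeasure μ] (hμ : IsCompact μ.support) {M : ℕ} {sh : ℕ} (hsh : sh ≤ 1)
    (r : Fin M) : sInf μ.support ≤ qAtom μ M sh r ∧ qAtom μ M sh r ≤ sSup μ.support := by
  have h := supp_sInf_le_sSup hμ
  have hr := r.isLt
  unfold qAtom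
  split_ifs with h0 h1
  · exact ⟨le_rfl, h⟩
  · exact ⟨h, le_rfl⟩
  · have hM : (0:ℝ) < M := by exact_mod_cast (Nat.lt_of_le_of_lt (Nat.zero_le _) hr)
    refine quantile_mem hμ (div_pos (by exact_mod_cast Nat.pos_of_ne_zero h0) hM) ?_
    rw [div_le_one hM]
    exact_mod_cast (show (r:ℕ) + sh ≤ M by omega)

lemma qAtom_mono [IsProbabilityMeasure μ] (hμ : IsCompact μ.support) {M : ℕ} {sh : ℕ} (hsh : sh ≤ 1)
    {r s : Fin M} (hrs : r ≤ s) : qAtom μ M sh r ≤ qAtom μ M sh s := by
  have hr := r.isLt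
  have hs := s.isLt
  have hrs' : (r:ℕ) ≤ s := hrs
  have hM : (0:ℝ) < M := by exact_mod_cast (Nat.lt_of_le_of_lt (Nat.zero_le _) hr)
  rcases Nat.eq_zero_or_pos ((r:ℕ) + sh) with h0 | h0
  · refine le_of_eq_of_le ?_ (qAtom_mem hμ hsh s).1
    rw [qAtom, if_pos h0]
  by_cases h1 : (s:ℕ) + sh = M
  · refine (qAtom_mem hμ hsh r).2.trans (le_of_eq ?_)
    rw [qAtom, if_neg (by omega), if_pos h1]
  rw [qAtom, qAtom, if_neg (by omega), if_neg (by omega), if_neg (by omega), if_neg h1]
  refine quantile_mono hμ (div_pos (by exact_mod_cast h0) hM) ?_ ?_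
  · gcongr
  · rw [div_le_one hM]
    exact_mod_cast (show (s:ℕ) + sh ≤ M by omega)

theorem quantileSeq_between [IsProbabilityMeasure μ] (hμ : IsCompact μ.support) {M : ℕ}
    (hM : 0 < M) {N : ℕ} (hN : M ≤ N) (i : Fin N) :
    ∃ r : Fin M, (r : ℕ) = (i : ℕ) * M / N ∧
      qAtom μ M 0 r ≤ quantileSeq μ N i ∧ quantileSeq μ N i ≤ qAtom μ M 1 r := by
  have hN0 : 0 < N := hM.trans_le hN
  have hiN := i.isLt
  have hr : (i : ℕ) * M / N < M := by
    rw [Nat.div_lt_iff_lt_mul hN0]
    calc (i:ℕ) * M < N * M := Nat.mul_lt_mul_of_pos_right hiN hM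
      _ = M * N := Nat.mul_comm _ _
  refine ⟨⟨_, hr⟩, rfl, ?_⟩
  set k := (i : ℕ) * M / N
  have hk1 : k * N ≤ (i:ℕ) * M := Nat.div_mul_le_self _ _
  have hk2 : (i:ℕ) * M < (k + 1) * N := (Nat.div_lt_iff_lt_mul hN0).1 (Nat.lt_succ_self _)
  have hMr : (0:ℝ) < M := by exact_mod_cast hM
  have hNr : (0:ℝ) < N := by exact_mod_cast hN0
  have hv0 : ∀ hk : k < M, k = 0 → qAtom μ M 0 ⟨k, hk⟩ = sInf μ.support := fun hk h => by
    rw [qAtom, if_pos (show k + 0 = 0 by omega)]
  have hv1 : ∀ hk : k < M, k + 1 = M → qAtom μ M 1 ⟨k, hk⟩ = sSup μ.support := fun hk h => by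
    rw [qAtom, if_neg (show ¬ k + 1 = 0 from Nat.succ_ne_zero k), if_pos (show k + 1 = M from h)]
  have hw0 : ∀ hk : k < M, 0 < k → qAtom μ M 0 ⟨k, hk⟩ = quantile μ ((k:ℝ) / M) := fun hk h => by
    rw [qAtom, if_neg (show ¬ k + 0 = 0 by omega), if_neg (show ¬ k + 0 = M by omega)]
    rfl
  have hw1 : ∀ hk : k < M, k + 1 ≠ M →
      qAtom μ M 1 ⟨k, hk⟩ = quantile μ (((k + 1 : ℕ) : ℝ) / M) := fun hk h => by
    rw [qAtom, if_neg (show ¬ k + 1 = 0 from Nat.succ_ne_zero k), if_neg (show ¬ k + 1 = M from h)]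
  unfold quantileSeq
  split_ifs with h0 h1
  · have hk0 : k = 0 := by simp [k, h0]
    exact ⟨(hv0 hr hk0).le, (qAtom_mem hμ le_rfl _).1⟩
  · have hkM : k + 1 = M := by
      refine le_antisymm hr ?_
      by_contra hc
      have h2 : (k + 1) * N ≤ (M - 1) * N := Nat.mul_le_mul_right _ (by omega)
      have e1 : (M - 1) * N + N = M * N := by
        rw [← Nat.succ_mul, Nat.succ_eq_add_one, Nat.sub_add_cancel hM]
      have e2 : (i:ℕ) * M + M = N * M := by rw [← Nat.succ_mul, Nat.succ_eq_add_one, h1]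
      rw [Nat.mul_comm N M] at e2
      omega
    exact ⟨(qAtom_mem hμ (Nat.zero_le 1) _).2, (hv1 hr hkM).ge⟩
  · have hi0 : 0 < ((i:ℕ):ℝ) / N := div_pos (by exact_mod_cast Nat.pos_of_ne_zero h0) hNr
    have hi1 : ((i:ℕ):ℝ) / N ≤ 1 := by
      rw [div_le_one hNr]; exact_mod_cast hiN.le
    obtain ⟨hq0, hq1⟩ := quantile_mem hμ hi0 hi1
    constructor
    · rcases Nat.eq_zero_or_pos k with e0 | e0
      · rw [hv0 hr e0]; exact hq0
      · rw [hw0 hr e0]
        refine quantile_mono hμ (div_pos (by exact_mod_cast e0) hMr) ?_ hi1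
        rw [div_le_div_iff₀ hMr hNr]
        exact_mod_cast hk1
    · by_cases e1 : k + 1 = M
      · rw [hv1 hr e1]; exact hq1
      · rw [hw1 hr e1]
        refine quantile_mono hμ hi0 ?_ ?_
        · rw [div_le_div_iff₀ hNr hMr]
          exact_mod_cast hk2.le
        · rw [div_le_one hMr]
          exact_mod_cast (show k + 1 ≤ M from hr)

/-! ### Equal weights -/

lemma evenLaw_integral {M : ℕ} (a : Fin M → ℝ) (f : ℝ → ℝ) :
    ∫ y, f y ∂evenLaw a = (1 / (M:ℝ)) * ∑ r, f (a r) := by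
  rw [evenLaw, integral_finsetSum_measure fun r _ =>
    (integrable_dirac (by finiteness)).smul_measure ENNReal.ofReal_ne_top, Finset.mul_sum]
  refine Finset.sum_congr rfl fun r _ => ?_
  rw [integral_smul_measure, integral_dirac, ENNReal.toReal_ofReal (by positivity), smul_eq_mul]

/-- The atoms of equal weight. -/
noncomputable def evenAtomsTop {M : ℕ} (hM : 0 < M) (a : Fin M → ℝ) (top : Fin M)
    (htop : ∀ r, a r ≤ a top) : Atoms (Fin M) where
  p _ := 1 / (M:ℝ)
  lam := a
  top := top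
  pos _ := by have : (0:ℝ) < M := by exact_mod_cast hM
              positivity
  sum_p := by
    have : (0:ℝ) < M := by exact_mod_cast hM
    simp; field_simp
  le_top := htop

lemma evenLaw_eq {M : ℕ} (hM : 0 < M) (a : Fin M → ℝ) (top : Fin M) (htop : ∀ r, a r ≤ a top) :
    evenLaw a = (evenAtomsTop hM a top htop).law := rfl

/-- A telescoping sum of jumps. -/
lemma sum_jumps (g : ℕ → ℝ) {j n : ℕ} (hjn : j ≤ n) :
    ∑ k ∈ Finset.range n, (g (k + 1) - g k) * (if k < j then (1:ℝ) else 0) = g j - g 0 := by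
  simp only [mul_ite, mul_one, mul_zero, ← Finset.sum_filter]
  rw [show (Finset.range n).filter (· < j) = Finset.range j by ext k; simp; omega,
    Finset.sum_range_sub g]

/-- The equally weighted quantiles from above dominate `μ`, those from below are dominated. -/
lemma evenLaw_sandwich [IsProbabilityMeasure μ] (hμ : IsCompact μ.support) {M : ℕ} (hM : 0 < M)
    {h : ℝ → ℝ} (hh : MonotoneOn h (Icc (sInf μ.support) (sSup μ.support)))
    (hint : Integrable h μ) :
    (1 / (M:ℝ)) * ∑ r, h (qAtom μ M 0 r) ≤ ∫ a, h a ∂μ ∧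
      ∫ a, h a ∂μ ≤ (1 / (M:ℝ)) * ∑ r, h (qAtom μ M 1 r) := by
  classical
  obtain ⟨n, rfl⟩ : ∃ n, M = n + 1 := ⟨M - 1, by omega⟩
  have hb := supp_bounds hμ
  -- the common jump points
  set P : ℕ → ℝ := fun k => qAtom μ (n + 1) 0 ⟨min k n, by omega⟩ with hP
  set Q : ℕ → ℝ := fun k => qAtom μ (n + 1) 1 ⟨min k n, by omega⟩ with hQ
  have hPm : ∀ k, P k ∈ Icc (sInf μ.support) (sSup μ.support) := fun k =>
    qAtom_mem hμ (Nat.zero_le 1) _
  have hQm : ∀ k, Q k ∈ Icc (sInf μ.support) (sSup μ.support) := fun k => qAtom_mem hμ le_rfl _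
  have hPmono : Monotone P := fun a b hab => qAtom_mono hμ (Nat.zero_le 1)
    (Fin.mk_le_mk.2 (min_le_min_right n hab))
  have hQmono : Monotone Q := fun a b hab => qAtom_mono hμ le_rfl
    (Fin.mk_le_mk.2 (min_le_min_right n hab))
  have hsumP : ∑ r : Fin (n + 1), h (qAtom μ (n + 1) 0 r) = ∑ k ∈ Finset.range (n + 1), h (P k) := by
    rw [Finset.sum_range]
    exact Finset.sum_congr rfl fun r _ => by simp [hP, Nat.min_eq_left (Nat.lt_succ_iff.1 r.isLt)]
  have hsumQ : ∑ r : Fin (n + 1), h (qAtom μ (n + 1) 1 r) = ∑ k ∈ Finset.range (n + 1), h (Q k) := by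
    rw [Finset.sum_range]
    exact Finset.sum_congr rfl fun r _ => by simp [hQ, Nat.min_eq_left (Nat.lt_succ_iff.1 r.isLt)]
  have hn1 : (0:ℝ) < (n:ℝ) + 1 := by positivity
  -- summation by parts
  have habel : ∀ (g : ℕ → ℝ), (1 / ((n + 1 : ℕ) : ℝ)) * ∑ k ∈ Finset.range (n + 1), g k
      = g 0 + ∑ k ∈ Finset.range n, (g (k + 1) - g k) * (1 - ((k + 1 : ℕ) : ℝ) / ((n:ℝ) + 1)) := by
    intro g
    have key : ∀ j : ℕ, ∑ k ∈ Finset.range (j + 1), g k
        = ((j:ℝ) + 1) * g 0 + ∑ k ∈ Finset.range j, (g (k + 1) - g k) * ((j:ℝ) - k) := by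
      intro j
      induction j with
      | zero => simp
      | succ j ih =>
        rw [Finset.sum_range_succ, ih, Finset.sum_range_succ _ j]
        have e : ∀ k ∈ Finset.range j, (g (k + 1) - g k) * (((j + 1 : ℕ) : ℝ) - k)
            = (g (k + 1) - g k) * ((j:ℝ) - k) + (g (k + 1) - g k) := fun k _ => by push_cast; ring
        rw [Finset.sum_congr rfl e, Finset.sum_add_distrib, Finset.sum_range_sub g]
        push_cast; ring
    rw [key n, mul_add, Finset.mul_sum]
    congr 1
    · push_cast; field_simp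
    · refine Finset.sum_congr rfl fun k _ => ?_
      push_cast; field_simp; ring
  have hstep : ∀ (g : ℕ → ℝ) (c : ℝ) (s : ℕ → Set ℝ), (∀ k, MeasurableSet (s k)) →
      Integrable (fun a => c + ∑ k ∈ Finset.range n, (g (k + 1) - g k) * (s k).indicator 1 a) μ ∧
      ∫ a, (c + ∑ k ∈ Finset.range n, (g (k + 1) - g k) * (s k).indicator 1 a) ∂μ
        = c + ∑ k ∈ Finset.range n, (g (k + 1) - g k) * μ.real (s k) := by
    intro g c s hs
    have hi : ∀ k ∈ Finset.range n,
        Integrable (fun a => (g (k + 1) - g k) * (s k).indicator 1 a) μ := fun k _ =>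
      ((integrable_const (1:ℝ)).indicator (hs k)).const_mul _
    refine ⟨(integrable_const c).add (integrable_finsetSum _ hi), ?_⟩
    rw [integral_add (integrable_const c) (integrable_finsetSum _ hi), integral_const,
      probReal_univ, one_smul, integral_finsetSum _ hi]
    congr 1
    exact Finset.sum_congr rfl fun k _ => by rw [integral_const_mul, integral_indicator_one (hs k)]
  constructor
  · rw [hsumP, habel fun k => h (P k)]
    obtain ⟨hi, he⟩ := hstep (fun k => h (P k)) (h (P 0)) (fun k => Ici (P (k + 1)))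
      fun k => measurableSet_Ici
    refine le_trans ?_ (le_of_eq_of_le he.symm (integral_mono_ae hi hint ?_))
    · refine add_le_add le_rfl (Finset.sum_le_sum fun k hk => mul_le_mul_of_nonneg_left ?_
        (sub_nonneg.2 (hh (hPm _) (hPm _) (hPmono (Nat.le_succ k)))))
      have hkn := Finset.mem_range.1 hk
      have hval : P (k + 1) = quantile μ ((k + 1 : ℕ) / ((n + 1 : ℕ) : ℝ)) := by
        simp only [hP, qAtom]
        rw [if_neg (by omega), if_neg (by omega)]
        simp [Nat.min_eq_left (show k + 1 ≤ n by omega)]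
      have hq0 : (0:ℝ) < ((k + 1 : ℕ) : ℝ) / ((n + 1 : ℕ) : ℝ) := by positivity
      have hq1 : ((k + 1 : ℕ) : ℝ) / ((n + 1 : ℕ) : ℝ) ≤ 1 := by
        rw [div_le_one (by positivity)]; exact_mod_cast (show k + 1 ≤ n + 1 by omega)
      have h1 := real_Iio_quantile_le hμ hq0 hq1
      rw [← hval] at h1
      rw [← compl_Iio, probReal_compl_eq_one_sub measurableSet_Iio]
      push_cast at h1 ⊢
      linarith
    · filter_upwards [hb] with a ha
      -- the last jump point below `a`
      have hP0 : P 0 = sInf μ.support := by simp [hP, qAtom]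
      set S := (Finset.range (n + 1)).filter (fun k => P k ≤ a) with hS
      have hS0 : S.Nonempty := ⟨0, by simp [hS, hP0, ha.1]⟩
      set j := S.max' hS0 with hj
      obtain ⟨hjr, hja⟩ := Finset.mem_filter.1 (S.max'_mem hS0)
      have hjn : j ≤ n := Nat.lt_succ_iff.1 (Finset.mem_range.1 hjr)
      have hind : ∀ k ∈ Finset.range n,
          (Ici (P (k + 1))).indicator (1 : ℝ → ℝ) a = if k < j then (1:ℝ) else 0 := by
        intro k hk
        have hkn := Finset.mem_range.1 hk
        by_cases hkj : k < j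
        · rw [if_pos hkj, indicator_of_mem (mem_Ici.2 ((hPmono hkj).trans hja)), Pi.one_apply]
        · rw [if_neg hkj, indicator_of_notMem]
          intro hmem
          have := S.le_max' (k + 1) (Finset.mem_filter.2 ⟨Finset.mem_range.2 (by omega), hmem⟩)
          omega
      rw [Finset.sum_congr rfl fun k hk => by rw [hind k hk], sum_jumps (fun k => h (P k)) hjn]
      have := hh (hPm j) ha hja
      linarith
  · rw [hsumQ, habel fun k => h (Q k)]
    obtain ⟨hi, he⟩ := hstep (fun k => h (Q k)) (h (Q 0)) (fun k => Ioi (Q k))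
      fun k => measurableSet_Ioi
    refine le_trans (le_of_le_of_eq (integral_mono_ae hint hi ?_) he) ?_
    · filter_upwards [hb] with a ha
      have hQn : Q n = sSup μ.support := by simp [hQ, qAtom]
      set S := (Finset.range (n + 1)).filter (fun k => a ≤ Q k) with hS
      have hS0 : S.Nonempty := ⟨n, by simp [hS, hQn, ha.2]⟩
      set j := S.min' hS0 with hj
      obtain ⟨hjr, hja⟩ := Finset.mem_filter.1 (S.min'_mem hS0)
      have hjn : j ≤ n := Nat.lt_succ_iff.1 (Finset.mem_range.1 hjr)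
      have hind : ∀ k ∈ Finset.range n,
          (Ioi (Q k)).indicator (1 : ℝ → ℝ) a = if k < j then (1:ℝ) else 0 := by
        intro k hk
        have hkn := Finset.mem_range.1 hk
        by_cases hkj : k < j
        · rw [if_pos hkj, indicator_of_mem, Pi.one_apply]
          by_contra hmem
          have := S.min'_le k (Finset.mem_filter.2
            ⟨Finset.mem_range.2 (by omega), not_lt.1 hmem⟩)
          omega
        · rw [if_neg hkj, indicator_of_notMem]
          exact not_lt.2 (hja.trans (hQmono (not_lt.1 hkj)))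
      rw [Finset.sum_congr rfl fun k hk => by rw [hind k hk], sum_jumps (fun k => h (Q k)) hjn]
      have := hh ha (hQm j) hja
      linarith
    · refine add_le_add le_rfl (Finset.sum_le_sum fun k hk => mul_le_mul_of_nonneg_left ?_
        (sub_nonneg.2 (hh (hQm _) (hQm _) (hQmono (Nat.le_succ k)))))
      have hkn := Finset.mem_range.1 hk
      have hval : Q k = quantile μ ((k + 1 : ℕ) / ((n + 1 : ℕ) : ℝ)) := by
        simp only [hQ, qAtom]
        rw [if_neg (by omega), if_neg (by omega)]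
        simp [Nat.min_eq_left (show k ≤ n by omega)]
      have hq1 : ((k + 1 : ℕ) : ℝ) / ((n + 1 : ℕ) : ℝ) ≤ 1 := by
        rw [div_le_one (by positivity)]; exact_mod_cast (show k + 1 ≤ n + 1 by omega)
      have h1 := le_real_quantile hμ hq1
      rw [← hval] at h1
      rw [← compl_Iic, probReal_compl_eq_one_sub measurableSet_Iic]
      push_cast at h1 ⊢
      linarith

/-! ### The R-transforms of the discretisations -/

lemma exists_top_close [IsProbabilityMeasure μ] (hμ : IsCompact μ.support) {ε : ℝ} (hε : 0 < ε) :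
    ∃ M₀ : ℕ, 2 ≤ M₀ ∧ ∀ M ≥ M₀, ∀ r : Fin M, (r : ℕ) + 1 = M →
      sSup μ.support - ε ≤ qAtom μ M 0 r := by
  set c := sSup μ.support - ε
  have hne := Measure.nonempty_support (μ := μ) (IsProbabilityMeasure.ne_zero μ)
  have hmem : sSup μ.support ∈ μ.support := hμ.sSup_mem hne
  have hpos : 0 < μ.real (Ioi c) := by
    have h := (Measure.mem_support_iff_forall _).1 hmem (Ioi c) (Ioi_mem_nhds (by simp [c, hε]))
    exact ENNReal.toReal_pos h.ne' (measure_ne_top μ _)
  refine ⟨⌈2 / μ.real (Ioi c)⌉₊ + 2, by omega, fun M hM r hr => ?_⟩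
  have hM2 : 2 ≤ M := by omega
  have hMr : (0:ℝ) < M := by exact_mod_cast (show 0 < M by omega)
  rw [qAtom, if_neg (by omega), if_neg (by omega)]
  by_contra hc
  have hcast : (((r:ℕ) + 0 : ℕ) : ℝ) = (M:ℝ) - 1 := by
    rw [add_zero, eq_sub_iff_add_eq]; exact_mod_cast hr
  rw [hcast] at hc
  have h0 : 0 < ((M:ℝ) - 1) / M := by
    have : (2:ℝ) ≤ M := by exact_mod_cast hM2
    exact div_pos (by linarith) hMr
  have h1 : ((M:ℝ) - 1) / M ≤ 1 := by rw [div_le_one hMr]; linarith
  have h2 := (quantile_le_iff hμ h0 h1 (a := c)).1 (not_le.1 hc).le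
  have h3 : μ.real (Ioi c) = 1 - μ.real (Iic c) := by
    rw [← compl_Iic, probReal_compl_eq_one_sub measurableSet_Iic]
  have h4 : μ.real (Ioi c) ≤ 1 / M := by
    rw [sub_div, div_self hMr.ne'] at h2; linarith
  have h5 : 2 / μ.real (Ioi c) < M := by
    have := Nat.le_ceil (2 / μ.real (Ioi c))
    have : ((⌈2 / μ.real (Ioi c)⌉₊ : ℕ) : ℝ) + 2 ≤ M := by exact_mod_cast hM
    linarith
  rw [div_lt_iff₀ hpos] at h5
  rw [le_div_iff₀ hMr] at h4
  linarith

/-- The two discretisations have R-transforms close to that of `μ`. -/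
theorem rTrans_approx [IsProbabilityMeasure μ] (hμ : IsCompact μ.support) {X ε : ℝ} (_hX : 0 < X)
    (hε : 0 < ε) :
    ∃ M₀, ∀ M ≥ M₀, ∀ sh ≤ 1, ∀ x ∈ Ioc (0 : ℝ) X,
      |rTrans (evenLaw (qAtom μ M sh)) x - rTrans μ x| ≤ ε := by
  set e := ε / 2 with hedef
  have he : 0 < e := half_pos hε
  set lo := sInf μ.support
  set hi := sSup μ.support
  have hD : 0 ≤ hi - lo := sub_nonneg.2 (supp_sInf_le_sSup hμ)
  set C := (hi - lo) * (1 + (hi - lo) / e) with hC
  have hC0 : 0 ≤ C := mul_nonneg hD (by positivity)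
  obtain ⟨M₁, hM₁, htopclose⟩ := exists_top_close hμ he
  refine ⟨M₁ + ⌈C / (2 * e)⌉₊ + 2, fun M hM sh hsh x hx => ?_⟩
  have hM1 : M₁ ≤ M := by omega
  have hM0 : 0 < M := by omega
  have hMr : (0:ℝ) < M := by exact_mod_cast hM0
  have hCM : C / M ≤ 2 * e := by
    rw [div_le_iff₀ hMr]
    have h1 := Nat.le_ceil (C / (2 * e))
    have h2 : ((⌈C / (2 * e)⌉₊ : ℕ) : ℝ) ≤ M := by exact_mod_cast (show ⌈C / (2 * e)⌉₊ ≤ M by omega)
    rw [div_le_iff₀ (by positivity : (0:ℝ) < 2 * e)] at h1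
    nlinarith
  set last : Fin M := ⟨M - 1, by omega⟩
  have hle_last : ∀ r : Fin M, r ≤ last := fun r => Fin.mk_le_mk.2 (by omega)
  set A0 := evenAtomsTop hM0 (qAtom μ M 0) last fun r => qAtom_mono hμ (Nat.zero_le 1) (hle_last r)
  set A1 := evenAtomsTop hM0 (qAtom μ M 1) last fun r => qAtom_mono hμ le_rfl (hle_last r)
  have := law_prob A0
  have := law_prob A1
  set t0 := qAtom μ M 0 last
  have htop0 : sSup A0.law.support = t0 := law_sSup A0
  have htop1 : sSup A1.law.support = hi := by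
    refine (law_sSup A1).trans ?_
    change qAtom μ M 1 last = hi
    rw [qAtom, if_neg (show ¬ (M - 1 + 1 = 0) by omega), if_pos (show M - 1 + 1 = M by omega)]
  have ht0 : hi - e ≤ t0 ∧ t0 ≤ hi :=
    ⟨htopclose M hM1 last (by simp [last]; omega), (qAtom_mem hμ (Nat.zero_le 1) _).2⟩
  have hc0 : ∀ w, cauchy A0.law w = (1 / (M:ℝ)) * ∑ r, (w - qAtom μ M 0 r)⁻¹ := fun w =>
    evenLaw_integral (qAtom μ M 0) fun a => (w - a)⁻¹
  have hc1 : ∀ w, cauchy A1.law w = (1 / (M:ℝ)) * ∑ r, (w - qAtom μ M 1 r)⁻¹ := fun w =>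
    evenLaw_integral (qAtom μ M 1) fun a => (w - a)⁻¹
  -- between the two discretisations
  have hsand : ∀ w, hi < w → cauchy A0.law w ≤ cauchy μ w ∧ cauchy μ w ≤ cauchy A1.law w := by
    intro w hw
    rw [hc0, hc1]
    refine evenLaw_sandwich hμ hM0 (fun a ha b hb hab => ?_)
      (integrable_inv_sub ((supp_bounds hμ).mono fun a ha => ha.2) hw)
    exact inv_anti₀ (by linarith [hb.2]) (by linarith)
  have hω01 : omegaInv A0.law x ≤ omegaInv μ x := by
    rw [omegaInv_eq, omegaInv_eq]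
    refine csInf_le_csInf (omegaSet_bddBelow _ _) ⟨_, omegaSet_nonempty hμ hx.1⟩ fun w hw => ?_
    exact ⟨htop0 ▸ lt_of_le_of_lt ht0.2 hw.1, (hsand w hw.1).1.trans hw.2⟩
  have hA1c : IsCompact A1.law.support := by
    rw [law_support A1]; exact (Set.finite_range _).isCompact
  have hA0c : IsCompact A0.law.support := by
    rw [law_support A0]; exact (Set.finite_range _).isCompact
  have hω12 : omegaInv μ x ≤ omegaInv A1.law x := by
    rw [omegaInv_eq, omegaInv_eq]
    refine csInf_le_csInf (omegaSet_bddBelow _ _) ⟨_, omegaSet_nonempty hA1c hx.1⟩ fun w hw => ?_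
    have hw1 : hi < w := htop1 ▸ hw.1
    exact ⟨hw1, (hsand w hw1).2.trans hw.2⟩
  -- the gap between them
  have hω20 : omegaInv A1.law x ≤ omegaInv A0.law x + 2 * e := by
    rw [omegaInv_eq, omegaInv_eq, ← sub_le_iff_le_add]
    refine le_csInf ⟨_, omegaSet_nonempty hA0c hx.1⟩ fun w hw => ?_
    rw [sub_le_iff_le_add]
    refine csInf_le (omegaSet_bddBelow _ _) ⟨?_, ?_⟩
    · rw [htop1]; linarith [htop0 ▸ hw.1]
    have hwt : t0 < w := htop0 ▸ hw.1
    set v := w + 2 * e with hv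
    have hve : e ≤ v - hi := by linarith
    have hb0 : ∀ᵐ a ∂A0.law, a ≤ t0 :=
      (supp_bounds hA0c).mono fun a ha => htop0 ▸ ha.2
    have hG0 : 0 < cauchy A0.law w := cauchy_pos hA0c (htop0.symm ▸ hwt)
    have hshift := cauchy_shift hb0 hwt (show 0 ≤ 2 * e by linarith)
    rw [← hv] at hshift
    set g := cauchy A0.law v
    have hg0 : 0 < g := cauchy_pos hA0c (by rw [htop0]; linarith)
    -- the two Cauchy transforms differ by one atom
    have hdiff : cauchy A1.law v ≤ g + C / M * g ^ 2 := by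
      have hvlo : 0 < v - lo := by linarith
      have hone : cauchy A1.law v - g ≤ (1 / (M:ℝ)) * ((v - hi)⁻¹ - (v - lo)⁻¹) := by
        simp only [g, hc0, hc1]
        rw [← mul_sub]
        refine mul_le_mul_of_nonneg_left (le_of_eq ?_) (by positivity)
        obtain ⟨n, rfl⟩ : ∃ n, M = n + 1 := ⟨M - 1, by omega⟩
        rw [Fin.sum_univ_castSucc, Fin.sum_univ_succ]
        have hmid : ∀ r : Fin n, qAtom μ (n + 1) 1 r.castSucc = qAtom μ (n + 1) 0 r.succ := by
          intro r
          have := r.isLt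
          simp only [qAtom, Fin.val_castSucc, Fin.val_succ, add_zero]
        simp only [hmid]
        have e1 : qAtom μ (n + 1) 1 (Fin.last n) = hi := by simp [qAtom, hi]
        have e0 : qAtom μ (n + 1) 0 (0 : Fin (n + 1)) = lo := by simp [qAtom, lo]
        rw [e1, e0]; ring
      have hsq : (v - hi)⁻¹ - (v - lo)⁻¹ ≤ C * ((v - lo)⁻¹) ^ 2 := by
        have hvhi : 0 < v - hi := by linarith
        have hratio : (v - lo) / (v - hi) ≤ 1 + (hi - lo) / e := by
          rw [show (v - lo) / (v - hi) = 1 + (hi - lo) / (v - hi) by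
            rw [eq_comm, ← sub_eq_zero]; field_simp; ring]
          gcongr
        calc (v - hi)⁻¹ - (v - lo)⁻¹
            = (hi - lo) * ((v - lo) / (v - hi)) * ((v - lo)⁻¹) ^ 2 := by field_simp; ring
          _ ≤ (hi - lo) * (1 + (hi - lo) / e) * ((v - lo)⁻¹) ^ 2 := by gcongr
      have hglo : (v - lo)⁻¹ ≤ g := by
        refine le_cauchy ?_ hb0 (by linarith)
        filter_upwards [supp_bounds hA0c] with a ha
        refine le_trans ?_ ha.1
        rw [law_support A0]
        refine le_csInf ⟨_, ⟨last, rfl⟩⟩ ?_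
        rintro _ ⟨r, rfl⟩
        exact (qAtom_mem hμ (Nat.zero_le 1) r).1
      have h3 : ((v - lo)⁻¹) ^ 2 ≤ g ^ 2 := pow_le_pow_left₀ (inv_nonneg.2 hvlo.le) hglo 2
      calc cauchy A1.law v ≤ g + (1 / (M:ℝ)) * ((v - hi)⁻¹ - (v - lo)⁻¹) := by linarith
        _ ≤ g + (1 / (M:ℝ)) * (C * g ^ 2) := by
            gcongr
            exact hsq.trans (mul_le_mul_of_nonneg_left h3 hC0)
        _ = _ := by ring
    refine hdiff.trans ?_
    -- g (1 + 2 e G) ≤ G ≤ x absorbs the correction
    have hden : 0 < 1 + 2 * e * cauchy A0.law w := by positivity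
    have hx0 : g * (1 + 2 * e * x) ≤ x := by
      refine le_trans ?_ (le_of_eq (mul_div_cancel_left₀ x hden.ne'))
      rw [le_div_iff₀ hden]
      calc g * (1 + 2 * e * x) * (1 + 2 * e * cauchy A0.law w)
          = g * (1 + 2 * e * cauchy A0.law w) * (1 + 2 * e * x) := by ring
        _ ≤ cauchy A0.law w * (1 + 2 * e * x) :=
            mul_le_mul_of_nonneg_right hshift (by nlinarith [hx.1])
        _ ≤ _ := by nlinarith [hw.2]
    have h4 : C / M * g ^ 2 ≤ 2 * e * x * g := by
      have hgx : g ≤ x := le_trans (le_mul_of_one_le_right hg0.le (by nlinarith [hx.1])) hx0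
      calc C / M * g ^ 2 ≤ 2 * e * g ^ 2 := mul_le_mul_of_nonneg_right hCM (sq_nonneg g)
        _ ≤ _ := by nlinarith [mul_nonneg (mul_nonneg he.le hg0.le) (sub_nonneg.2 hgx)]
    linarith
  have e0 : evenLaw (qAtom μ M 0) = A0.law := rfl
  have e1 : evenLaw (qAtom μ M 1) = A1.law := rfl
  rw [rTrans, rTrans, sub_sub_sub_cancel_right, abs_le]
  rcases Nat.le_one_iff_eq_zero_or_eq_one.1 hsh with rfl | rfl
  · rw [e0]; constructor <;> linarith
  · rw [e1]; constructor <;> linarith

/-! ### The quantile sequence -/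

lemma evenLaw_cdf_le [IsProbabilityMeasure μ] (hμ : IsCompact μ.support) {N : ℕ} (hN : 0 < N)
    (a : ℝ) : |(1 / (N:ℝ)) * ∑ i, (Iic a).indicator (1 : ℝ → ℝ) (quantileSeq μ N i)
      - μ.real (Iic a)| ≤ 3 / N := by
  classical
  have hNr : (0:ℝ) < N := by exact_mod_cast hN
  set F := μ.real (Iic a) with hF
  have hF0 : 0 ≤ F := measureReal_nonneg
  have hF1 : F ≤ 1 := measureReal_le_one
  set cnt := (Finset.univ.filter fun i : Fin N => quantileSeq μ N i ≤ a).card with hcnt
  have hsum : ∑ i, (Iic a).indicator (1 : ℝ → ℝ) (quantileSeq μ N i) = cnt := by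
    rw [hcnt, Finset.card_filter, Nat.cast_sum]
    refine Finset.sum_congr rfl fun i _ => ?_
    by_cases h : quantileSeq μ N i ≤ a <;> simp [h]
  have hmid : ∀ i : Fin N, (i:ℕ) ≠ 0 → (i:ℕ) + 1 ≠ N →
      (quantileSeq μ N i ≤ a ↔ ((i:ℕ):ℝ) ≤ N * F) := by
    intro i h0 h1
    rw [quantileSeq, if_neg h0, if_neg h1,
      quantile_le_iff hμ (div_pos (by exact_mod_cast Nat.pos_of_ne_zero h0) hNr)
        (by rw [div_le_one hNr]; exact_mod_cast i.isLt.le), div_le_iff₀ hNr, mul_comm F]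
  set m := ⌊(N:ℝ) * F⌋₊
  have hm1 : (m:ℝ) ≤ N * F := Nat.floor_le (by positivity)
  have hm2 : (N:ℝ) * F < m + 1 := Nat.lt_floor_add_one _
  have hup : cnt ≤ m + 2 := by
    have : (Finset.univ.filter fun i : Fin N => quantileSeq μ N i ≤ a).image Fin.val
        ⊆ insert (N - 1) (Finset.range (m + 1)) := by
      intro k hk
      obtain ⟨i, hi, rfl⟩ := Finset.mem_image.1 hk
      rw [Finset.mem_insert, Finset.mem_range]
      by_cases h1 : (i:ℕ) + 1 = N
      · left; omega
      rcases Nat.eq_zero_or_pos (i:ℕ) with h0 | h0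
      · right; omega
      · right
        have := Nat.le_floor ((hmid i h0.ne' h1).1 (Finset.mem_filter.1 hi).2)
        omega
    have h := Finset.card_le_card this
    rw [Finset.card_image_of_injective _ Fin.val_injective] at h
    refine h.trans ((Finset.card_insert_le _ _).trans ?_)
    simp
  have hlow : m ≤ cnt + 2 := by
    rcases le_or_gt m 2 with h | h
    · omega
    have hmN : m ≤ N := by
      have : (m:ℝ) ≤ N := hm1.trans (mul_le_of_le_one_right hNr.le hF1)
      exact_mod_cast this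
    have : (Finset.Ico 1 (m - 1)) ⊆
        (Finset.univ.filter fun i : Fin N => quantileSeq μ N i ≤ a).image Fin.val := by
      intro k hk
      obtain ⟨hk1, hk2⟩ := Finset.mem_Ico.1 hk
      refine Finset.mem_image.2 ⟨⟨k, by omega⟩, Finset.mem_filter.2 ⟨Finset.mem_univ _, ?_⟩, rfl⟩
      refine (hmid ⟨k, by omega⟩ (by simp only; omega) (by simp only; omega)).2 ?_
      calc ((k:ℕ):ℝ) ≤ m := by exact_mod_cast (show k ≤ m by omega)
        _ ≤ _ := hm1
    have h' := Finset.card_le_card this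
    rw [Finset.card_image_of_injective _ Fin.val_injective, Nat.card_Ico] at h'
    omega
  have h1 : (cnt:ℝ) ≤ m + 2 := by exact_mod_cast hup
  have h2 : (m:ℝ) ≤ cnt + 2 := by exact_mod_cast hlow
  rw [hsum, show (1 / (N:ℝ)) * cnt - F = ((cnt:ℝ) - N * F) / N by field_simp,
    abs_div, abs_of_pos hNr]
  refine (div_le_div_iff_of_pos_right hNr).2 ?_
  rw [abs_le]
  constructor <;> linarith

end Vale.Agent.P166.Parisi
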