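import Vale.Agent.P166.Parisi.Spec.Quantile

/-!
Module S, part 4: the quantile sequence is admissible.
-/

namespace Vale.Agent.P166.Parisi

open MeasureTheory Set Filter Topology
open scoped BoundedContinuousFunction

variable {μ : Measure ℝ}

lemma quantileSeq_mem [IsProbabilityMeasure μ] (hμ : IsCompact μ.support) {N : ℕ} (i : Fin N) :
    sInf μ.support ≤ quantileSeq μ N i ∧ quantileSeq μ N i ≤ sSup μ.support := by
  have h := supp_sInf_le_sSup hμ
  have hN : (0:ℝ) < N := by exact_mod_cast (Nat.lt_of_le_of_lt (Nat.zero_le _) i.isLt)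
  unfold quantileSeq
  split_ifs with h0 h1
  · exact ⟨le_rfl, h⟩
  · exact ⟨h, le_rfl⟩
  · refine quantile_mem hμ (div_pos (by exact_mod_cast Nat.pos_of_ne_zero h0) hN) ?_
    rw [div_le_one hN]
    exact_mod_cast i.isLt.le

lemma quantileSeq_weak [IsProbabilityMeasure μ] (hμ : IsCompact μ.support) (f : ℝ →ᵇ ℝ) :
    Tendsto (fun N : ℕ => (1 / (N:ℝ)) * ∑ i, f (quantileSeq μ N i)) atTop (𝓝 (∫ x, f x ∂μ)) := by
  classical
  rw [Metric.tendsto_atTop]
  intro ε hε
  set lo := sInf μ.support with hlo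
  set hi := sSup μ.support with hhi
  have hle : lo ≤ hi := supp_sInf_le_sSup hμ
  obtain ⟨δ, hδ, hδf⟩ := Metric.uniformContinuousOn_iff.1
    (isCompact_Icc.uniformContinuousOn_of_continuous f.continuous.continuousOn
      : UniformContinuousOn f (Icc lo hi)) (ε / 4) (by positivity)
  obtain ⟨K, hK⟩ := exists_nat_gt ((hi - lo) / δ)
  set n := K + 1
  have hn : (0:ℝ) < n := by positivity
  have hmesh : (hi - lo) / n < δ := by
    rw [div_lt_iff₀ hn]
    rw [div_lt_iff₀ hδ] at hK
    have : δ * (K:ℝ) ≤ δ * n := by gcongr; simp [n]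
    linarith
  set p : ℕ → ℝ := fun k => lo + k * ((hi - lo) / n) with hp
  have hpmono : Monotone p := fun a b hab => by
    simp only [hp]
    have := div_nonneg (sub_nonneg.2 hle) hn.le
    gcongr
  have hpn : p n = hi := by simp only [hp]; field_simp; ring
  have hp0 : p 0 = lo := by simp [hp]
  have hpmem : ∀ k ≤ n, p k ∈ Icc lo hi := fun k hk =>
    ⟨hp0 ▸ hpmono (Nat.zero_le k), hpn ▸ hpmono hk⟩
  set h : ℝ → ℝ := fun a => f (p 0)
    + ∑ k ∈ Finset.range n, (f (p (k + 1)) - f (p k)) * (Ioi (p k)).indicator 1 a with hh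
  have happ : ∀ a ∈ Icc lo hi, |f a - h a| ≤ ε / 4 := by
    intro a ha
    set S := (Finset.range (n + 1)).filter (fun k => a ≤ p k) with hS
    have hS0 : S.Nonempty :=
      ⟨n, Finset.mem_filter.2 ⟨Finset.self_mem_range_succ n, hpn ▸ ha.2⟩⟩
    set j := S.min' hS0 with hj
    obtain ⟨hjr, hja⟩ := Finset.mem_filter.1 (S.min'_mem hS0)
    have hjn : j ≤ n := Nat.lt_succ_iff.1 (Finset.mem_range.1 hjr)
    have hind : ∀ k ∈ Finset.range n,
        (Ioi (p k)).indicator (1 : ℝ → ℝ) a = if k < j then (1:ℝ) else 0 := by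
      intro k hk
      have hkn := Finset.mem_range.1 hk
      by_cases hkj : k < j
      · rw [if_pos hkj, indicator_of_mem, Pi.one_apply]
        by_contra hmem
        have := S.min'_le k (Finset.mem_filter.2 ⟨Finset.mem_range.2 (by omega), not_lt.1 hmem⟩)
        omega
      · rw [if_neg hkj, indicator_of_notMem]
        exact not_lt.2 (hja.trans (hpmono (not_lt.1 hkj)))
    simp only [hh]
    rw [Finset.sum_congr rfl fun k hk => by rw [hind k hk], sum_jumps (fun k => f (p k)) hjn,
      add_sub_cancel]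
    rcases Nat.eq_zero_or_pos j with h0 | h0
    · rw [← hj, h0] at hja
      have : a = p 0 := le_antisymm hja (hp0 ▸ ha.1)
      rw [h0, this]; simp; positivity
    · have hprev : p (j - 1) < a := by
        by_contra hc
        have := S.min'_le (j - 1) (Finset.mem_filter.2 ⟨Finset.mem_range.2 (by omega), not_lt.1 hc⟩)
        omega
      have hgap : p j - p (j - 1) = (hi - lo) / n := by
        simp only [hp]; rw [Nat.cast_sub h0]; push_cast; ring
      refine (hδf a ha (p j) (hpmem j hjn) ?_).le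
      rw [Real.dist_eq, abs_of_nonpos (sub_nonpos.2 hja)]
      linarith
  have hind_int : ∀ k, Integrable ((Ioi (p k)).indicator (1 : ℝ → ℝ)) μ := fun k =>
    (integrable_const (1:ℝ)).indicator measurableSet_Ioi
  have hhint : Integrable h μ := (integrable_const _).add
    (integrable_finsetSum _ fun k _ => (hind_int k).const_mul _)
  set B := ∑ k ∈ Finset.range n, |f (p (k + 1)) - f (p k)| with hB
  obtain ⟨N₀, hN₀⟩ := exists_nat_gt (4 * (3 * B) / ε)
  refine ⟨N₀ + 1, fun N hN => ?_⟩
  have hN0 : 0 < N := by omega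
  have hNr : (0:ℝ) < N := by exact_mod_cast hN0
  have hNB : 3 * B / N < ε / 4 := by
    rw [div_lt_iff₀ hNr]
    rw [div_lt_iff₀ hε] at hN₀
    have : (N₀:ℝ) ≤ N := by exact_mod_cast (show N₀ ≤ N by omega)
    nlinarith
  have e1 : |(1 / (N:ℝ)) * ∑ i, f (quantileSeq μ N i) - (1 / (N:ℝ)) * ∑ i, h (quantileSeq μ N i)|
      ≤ ε / 4 := by
    rw [← mul_sub, ← Finset.sum_sub_distrib, abs_mul, abs_of_pos (by positivity : (0:ℝ) < 1 / N)]
    calc (1 / (N:ℝ)) * |∑ i, (f (quantileSeq μ N i) - h (quantileSeq μ N i))|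
        ≤ (1 / (N:ℝ)) * ∑ _i : Fin N, ε / 4 := by
          gcongr
          exact (Finset.abs_sum_le_sum_abs _ _).trans
            (Finset.sum_le_sum fun i _ => happ _ (quantileSeq_mem hμ i))
      _ = ε / 4 := by simp; field_simp
  have e2 : |∫ a, f a ∂μ - ∫ a, h a ∂μ| ≤ ε / 4 := by
    rw [← integral_sub (f.integrable μ) hhint]
    refine (abs_integral_le_integral_abs).trans ?_
    calc ∫ a, |f a - h a| ∂μ ≤ ∫ _a, ε / 4 ∂μ :=
          integral_mono_ae ((f.integrable μ).sub hhint).abs (integrable_const _)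
            ((supp_bounds hμ).mono fun a ha => happ a ha)
      _ = ε / 4 := by simp
  have e3 : |(1 / (N:ℝ)) * ∑ i, h (quantileSeq μ N i) - ∫ a, h a ∂μ| ≤ 3 * B / N := by
    have eL : (1 / (N:ℝ)) * ∑ i, h (quantileSeq μ N i) = f (p 0) + ∑ k ∈ Finset.range n,
        (f (p (k + 1)) - f (p k)) *
          (1 - (1 / (N:ℝ)) * ∑ i, (Iic (p k)).indicator (1 : ℝ → ℝ) (quantileSeq μ N i)) := by
      simp only [hh, Finset.sum_add_distrib, mul_add, Finset.sum_const, Finset.card_univ,
        Fintype.card_fin, nsmul_eq_mul]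
      congr 1
      · field_simp
      · rw [Finset.sum_comm, Finset.mul_sum]
        refine Finset.sum_congr rfl fun k _ => ?_
        rw [← Finset.mul_sum, ← mul_assoc, mul_comm (1 / (N:ℝ)), mul_assoc]
        congr 1
        have : ∀ a : ℝ, (Ioi (p k)).indicator (1 : ℝ → ℝ) a
            = 1 - (Iic (p k)).indicator (1 : ℝ → ℝ) a := fun a => by
          by_cases ha : a ≤ p k
          · rw [indicator_of_notMem (by simpa using ha), indicator_of_mem (mem_Iic.2 ha)]; simp
          · rw [indicator_of_mem (by simpa using ha), indicator_of_notMem (by simpa using ha)]; simp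
        rw [Finset.sum_congr rfl fun i _ => this _, Finset.sum_sub_distrib, mul_sub]
        simp; field_simp
    have eR : ∫ a, h a ∂μ = f (p 0) + ∑ k ∈ Finset.range n,
        (f (p (k + 1)) - f (p k)) * (1 - μ.real (Iic (p k))) := by
      simp only [hh]
      rw [integral_add (integrable_const _)
        (integrable_finsetSum _ fun k _ => (hind_int k).const_mul _), integral_const, probReal_univ,
        one_smul, integral_finsetSum _ fun k _ => (hind_int k).const_mul _]
      congr 1
      refine Finset.sum_congr rfl fun k _ => ?_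
      rw [integral_const_mul, integral_indicator_one measurableSet_Ioi, ← compl_Iic,
        probReal_compl_eq_one_sub measurableSet_Iic]
    rw [eL, eR, add_sub_add_left_eq_sub, ← Finset.sum_sub_distrib, hB, Finset.mul_sum,
      Finset.sum_div]
    refine (Finset.abs_sum_le_sum_abs _ _).trans (Finset.sum_le_sum fun k _ => ?_)
    rw [← mul_sub, sub_sub_sub_cancel_left, abs_mul, abs_sub_comm (μ.real _)]
    refine (mul_le_mul_of_nonneg_left (evenLaw_cdf_le hμ hN0 (p k)) (abs_nonneg _)).trans
      (le_of_eq ?_)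
    ring
  rw [Real.dist_eq]
  rw [abs_le] at e1 e2 e3
  rw [abs_lt]
  constructor <;> linarith

theorem quantileSeq_admissible [IsProbabilityMeasure μ] (hμ : IsCompact μ.support) :
    Admissible μ (quantileSeq μ) := by
  refine ⟨quantileSeq_weak hμ, ?_, ?_⟩
  · refine tendsto_const_nhds.congr' ?_
    filter_upwards [eventually_ge_atTop 2] with N hN
    have : Nonempty (Fin N) := ⟨⟨0, by omega⟩⟩
    refine le_antisymm (le_ciInf fun i => (quantileSeq_mem hμ i).1) ?_
    refine (ciInf_le ⟨sInf μ.support, ?_⟩ (⟨0, by omega⟩ : Fin N)).trans (le_of_eq ?_)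
    · rintro _ ⟨i, rfl⟩; exact (quantileSeq_mem hμ i).1
    · simp [quantileSeq]
  · refine tendsto_const_nhds.congr' ?_
    filter_upwards [eventually_ge_atTop 2] with N hN
    have : Nonempty (Fin N) := ⟨⟨0, by omega⟩⟩
    refine le_antisymm ?_ (ciSup_le fun i => (quantileSeq_mem hμ i).2)
    refine (le_of_eq ?_).trans (le_ciSup ⟨sSup μ.support, ?_⟩ (⟨N - 1, by omega⟩ : Fin N))
    · rw [quantileSeq, if_neg (show ¬ N - 1 = 0 by omega), if_pos (show N - 1 + 1 = N by omega)]
    · rintro _ ⟨i, rfl⟩; exact (quantileSeq_mem hμ i).2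

end Vale.Agent.P166.Parisi
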