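import Vale.Agent.P166.Parisi.Formula

/-!
Definitions of module S (spectral algebra: the R-transform of an atomic measure, monotonicity, the
energy term).
-/

namespace Vale.Agent.P166.Parisi

open MeasureTheory Finset Set
open Vale.Agent.P157.Parisi (lvl IsPath)

/-- Finitely many atoms with weights, and the index of a largest one. -/
structure Atoms (γ : Type) [Fintype γ] where
  p : γ → ℝ
  lam : γ → ℝ
  top : γ
  pos : ∀ r, 0 < p r
  sum_p : ∑ r, p r = 1
  le_top : ∀ r, lam r ≤ lam top

variable {γ : Type} [Fintype γ] (A : Atoms γ)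

/-- The distance of an atom from the largest one. -/
def Atoms.gapTop (r : γ) : ℝ := A.lam A.top - A.lam r

/-- The total overlap as a function of the normalised overlap `c` of the top atom. -/
noncomputable def Atoms.chiOf (c : ℝ) : ℝ := ∑ r, A.p r * c / (1 + A.gapTop r * c)

/-- The normalised overlap of the top atom as a function of the total overlap. -/
noncomputable def Atoms.topOf (χ : ℝ) : ℝ := sSup {c | 0 ≤ c ∧ A.chiOf c ≤ χ}

/-- The overlap of atom `r`. -/
noncomputable def Atoms.part (r : γ) (χ : ℝ) : ℝ :=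
  A.p r * A.topOf χ / (1 + A.gapTop r * A.topOf χ)

/-- Its derivative. -/
noncomputable def Atoms.dPart (r : γ) (χ : ℝ) : ℝ :=
  (A.p r / (1 + A.gapTop r * A.topOf χ) ^ 2) /
    ∑ s, A.p s / (1 + A.gapTop s * A.topOf χ) ^ 2

/-- The derivative of `∑_r lam r * part r`. -/
noncomputable def Atoms.dPhi (χ : ℝ) : ℝ := ∑ r, A.lam r * A.dPart r χ

/-- The law of the atoms. -/
noncomputable def Atoms.law : Measure ℝ := ∑ r, ENNReal.ofReal (A.p r) • Measure.dirac (A.lam r)

/-- The atoms scaled by `t`. -/
def Atoms.scale (t : ℝ) (ht : 0 ≤ t) : Atoms γ where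
  p := A.p
  lam r := t * A.lam r
  top := A.top
  pos := A.pos
  sum_p := A.sum_p
  le_top r := mul_le_mul_of_nonneg_left (A.le_top r) ht

/-- The energy density at time `t`: `∑_r lam r * (part r)'` for the atoms scaled by `t`. -/
noncomputable def Atoms.dEnergy (t χ : ℝ) : ℝ :=
  ∑ r, A.lam r * (A.scale (max t 0) (le_max_right t 0)).dPart r χ

/-! ### General measures -/

variable {μ ν : Measure ℝ}

/-- The quantile function. -/
noncomputable def quantile (μ : Measure ℝ) (u : ℝ) : ℝ := sInf {a | u ≤ μ.real (Set.Iic a)}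

/-- The equally weighted quantile atoms: `sh = 1` from above, `sh = 0` from below. -/
noncomputable def qAtom (μ : Measure ℝ) (M : ℕ) (sh : ℕ) (r : Fin M) : ℝ :=
  if (r : ℕ) + sh = 0 then sInf μ.support
  else if (r : ℕ) + sh = M then sSup μ.support
  else quantile μ (((r : ℕ) + sh : ℕ) / (M : ℝ))

/-- Equally weighted atoms. -/
noncomputable def evenLaw {M : ℕ} (a : Fin M → ℝ) : Measure ℝ :=
  ∑ r, ENNReal.ofReal (1 / (M : ℝ)) • Measure.dirac (a r)

/-- The eigenvalues `quantile μ (i / N)`, with both ends of the support. -/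
noncomputable def quantileSeq (μ : Measure ℝ) (N : ℕ) (i : Fin N) : ℝ :=
  if (i : ℕ) = 0 then sInf μ.support
  else if (i : ℕ) + 1 = N then sSup μ.support
  else quantile μ ((i : ℕ) / (N : ℝ))

/-! ### The path -/

end Vale.Agent.P166.Parisi
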